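import Vale.Agent.P061.Treewidth.Group

/-!
# P061: a good edge between two classes

Among the many edges joining two classes, one has the property that every cut crossing it
raises the potential by `eta` on the nodes where both classes are present.
-/

namespace Vale.P061.TW

open Finset
open scoped Classical

variable {V ι : Type} [Fintype V] [Fintype ι] (D : Data V ι)

/-- The bag of `s` has a vertex of class `z`. -/
def Data.Meets (c : V → V) (z : V) (s : ι) : Prop := ∃ v ∈ D.B s, c v = z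

/-- Weight bound for a bundle without a good edge, divided by the threshold. -/
def bundleConst (b : ℕ) : ℕ :=
  8 * (b + 1) + 2 * 2 ^ b * (2 * (4 * (2 * b + 1)) * famSize b)

/-- Ratio between the connectivity and the threshold. -/
def treeConst (b : ℕ) : ℕ := b * bundleConst b + 8 * flipConst b + 9

theorem Data.tot_compl (t : ι) (S : Finset V) : D.tot t Sᶜ = D.tot t S := by
  simp only [Data.tot, D.ext_compl, Data.dlt, D.cutN_compl]

theorem Data.exists_good (c : V → V) (x y : V) (t : ι) (heta : 1 ≤ D.eta)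
    (hD : treeConst D.b * D.eta ≤ D.k) (hxt : D.Meets c x t) (hyt : D.Meets c y t)
    (hxs : ∀ s, D.Meets c x s → s ∈ D.sub t) (hone : ∀ z, D.OneTop (D.Meets c z))
    (hside : ∀ v ∈ D.verts (D.sub t), c v = x ∨ c v = y → ∃ r ∈ D.B t, ∀ h ∈ D.sub t, h ≠ t →
      ¬ D.Meets c (c v) h → ∀ S, D.phi t S - D.phi h S < D.eta → (v ∈ S ↔ r ∈ S))
    (hW : D.k ≤ D.b * ∑ e ∈ (univ : Finset (V × V)).filter
      (fun e => c e.1 = x ∧ c e.2 = y ∧ 0 < D.w e.1 e.2), D.w e.1 e.2) :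
    ∃ e : V × V, c e.1 = x ∧ c e.2 = y ∧ 0 < D.w e.1 e.2 ∧ ∀ S : Finset V, e.1 ∈ S → e.2 ∉ S →
      D.eta ≤ ∑ s ∈ (D.sub t).filter (fun s => D.Meets c x s ∧ D.Meets c y s), D.inc S s := by
  by_contra hno
  push Not at hno
  obtain ⟨v0, hv0, hv0x⟩ := hxt
  have : Nonempty V := ⟨v0⟩
  have hθ : 8 * D.eta ≤ D.k ∧ D.eta + 8 * flipConst D.b * D.eta ≤ D.k ∧
      D.b * bundleConst D.b * D.eta < D.k := by
    simp only [treeConst, Nat.add_mul] at hD
    omega
  set J := (D.sub t).filter (fun s => D.Meets c x s ∧ D.Meets c y s) with hJ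
  set H := (D.sub t \ J).filter (fun h => D.par h ∈ J) with hHdef
  have htJ : t ∈ J := mem_filter.2 ⟨D.mem_sub_self t, ⟨v0, hv0, hv0x⟩, hyt⟩
  have hbetw : ∀ {s u z}, s ∈ J → u ∈ J → Below D.par D.root s z → Below D.par D.root z u →
      z ∈ J := by
    intro s u z hs hu a a'
    obtain ⟨hs0, hs1, hs2⟩ := mem_filter.1 hs
    obtain ⟨hu0, hu1, hu2⟩ := mem_filter.1 hu
    exact mem_filter.2 ⟨D.mem_sub.2 (D.below_trans a' (D.mem_sub.1 hu0)),
      D.between (hone x) hs1 hu1 a a', D.between (hone y) hs2 hu2 a a'⟩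
  have hHmem : ∀ h ∈ H, h ∈ D.sub t ∧ h ≠ t ∧ h ∉ J ∧ D.par h ∈ J ∧ h ≠ D.root := by
    intro h hh
    simp only [hHdef, mem_filter, mem_sdiff] at hh
    have hne : h ≠ t := fun e => hh.1.2 (e ▸ htJ)
    exact ⟨hh.1.1, hne, hh.1.2, hh.2, (D.par_mem hh.1.1 hne).1⟩
  have hA : D.Anti t H := by
    refine ⟨fun h hh => ⟨(hHmem h hh).1, (hHmem h hh).2.1⟩, fun a ha b hb hne hab => ?_⟩
    obtain ⟨-, hpa⟩ := D.par_mem hab hne
    exact (hHmem b hb).2.2.1 (hbetw (hHmem a ha).2.2.2.1 (hHmem b hb).2.2.2.1 (D.mem_sub.1 hpa)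
      (Relation.ReflTransGen.single ⟨(hHmem b hb).2.2.2.2, rfl⟩))
  have hrest : D.rest t H = J := by
    ext s
    simp only [Data.rest, mem_sdiff, mem_biUnion, not_exists, not_and]
    constructor
    · rintro ⟨hs, hno'⟩
      by_contra hsJ
      obtain ⟨z, ⟨⟨hzt, hzJ⟩, htop⟩, hsz, -⟩ :=
        D.exists_top (fun z => z ∈ D.sub t ∧ z ∉ J) ⟨hs, hsJ⟩
      obtain ⟨hzr, hpz⟩ := D.par_mem hzt (fun e => hzJ (e ▸ htJ))
      refine hno' z (mem_filter.2 ⟨mem_sdiff.2 ⟨hzt, hzJ⟩, ?_⟩) (D.mem_sub.2 hsz)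
      by_contra hp
      exact htop.elim hzr fun h => h ⟨hpz, hp⟩
    · intro hs
      refine ⟨(mem_filter.1 hs).1, fun a ha hsa => ?_⟩
      exact (hHmem a ha).2.2.1 (hbetw hs (hHmem a ha).2.2.2.1 (D.mem_sub.1 hsa)
        (Relation.ReflTransGen.single ⟨(hHmem a ha).2.2.2.2, rfl⟩))
  set P := (univ : Finset (V × V)).filter
    (fun e => c e.1 = x ∧ c e.2 = y ∧ 0 < D.w e.1 e.2) with hP
  have hPmem : ∀ e ∈ P, c e.1 = x ∧ c e.2 = y ∧ 0 < D.w e.1 e.2 := fun e he => (mem_filter.1 he).2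
  have hnuJ : ∀ e ∈ P, D.nu e.1 e.2 ∈ J := by
    intro e he
    obtain ⟨a1, a2, a3⟩ := hPmem e he
    obtain ⟨b1, b2⟩ := D.nu_in a3
    exact mem_filter.2 ⟨hxs _ ⟨_, b1, a1⟩, ⟨_, b1, a1⟩, ⟨_, b2, a2⟩⟩
  have hwit : ∀ e, ∃ S : Finset V, e ∈ P → e.1 ∈ S ∧ e.2 ∉ S ∧ ∑ s ∈ J, D.inc S s < D.eta := by
    intro e
    by_cases he : e ∈ P
    · obtain ⟨a1, a2, a3⟩ := hPmem e he
      obtain ⟨S, h⟩ := hno e a1 a2 a3
      exact ⟨S, fun _ => h⟩
    · exact ⟨∅, fun h => absurd h he⟩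
  choose S hS using hwit
  -- edges separated inside the subtree at `t`
  set E0 := P.filter (fun e => D.tot t (S e) < 2 * D.eta) with hE0
  set E1 := P.filter (fun e => ¬ D.tot t (S e) < 2 * D.eta) with hE1
  have hE0w : ∑ e ∈ E0, D.w e.1 e.2 ≤ 4 * (2 * D.eta) * (D.b + 1) := by
    obtain ⟨Q⟩ := D.exists_part_rest t ∅ (2 * D.eta) (by omega) (by omega)
    refine le_trans ?_ (Q.inter_le.trans (by simp))
    rw [D.inter_eq, ← Fintype.sum_prod_type']
    refine le_trans (le_of_eq (sum_congr rfl fun e he => ?_)) (sum_le_univ_sum_of_nonneg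
      fun _ => Nat.zero_le _)
    obtain ⟨heP, hlt⟩ := mem_filter.1 he
    have hnu : D.nu e.1 e.2 ∈ D.sub t := (mem_filter.1 (hnuJ e heP)).1
    obtain ⟨b1, b2⟩ := D.nu_in (hPmem e heP).2.2
    have hcut : D.cutN (D.rest t ∅) (S e) < 2 * D.eta := by
      rw [D.rest_empty]
      refine lt_of_le_of_lt ?_ hlt
      have := D.ext_le_dlt t (S e)
      simp only [Data.tot, Data.dlt] at this ⊢
      omega
    have hne : Q.p e.1 ≠ Q.p e.2 := fun h => (hS e heP).2.1
      ((Q.mono _ hcut _ (by rw [D.rest_empty]; exact D.mem_verts.2 ⟨_, hnu, b1⟩) _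
        (by rw [D.rest_empty]; exact D.mem_verts.2 ⟨_, hnu, b2⟩) h).1 (hS e heP).1)
    simp [hne, Data.wN, hnu, D.rest_empty]
  -- the other edges
  have hdata : ∀ e, ∃ (h : ι) (A : Finset V) (a0 a1 : V), e ∈ E1 →
      h ∈ H ∧ ((a0 = e.1 ∧ a1 = e.2) ∨ (a0 = e.2 ∧ a1 = e.1)) ∧ a0 ∉ A ∧ a1 ∈ A ∧
      D.cutN (D.rest t {h}) A < D.eta ∧
      D.cutN (D.rest t {h}) A + D.ext h A < D.ext t A + D.eta ∧
      D.phi t A - D.phi h A < D.eta ∧ ¬ D.Meets c (c a0) h := by
    intro e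
    by_cases he : e ∈ E1
    swap
    · exact ⟨t, ∅, e.1, e.2, fun h => absurd h he⟩
    obtain ⟨heP, hbig⟩ := mem_filter.1 he
    obtain ⟨hS1, hS2, hS3⟩ := hS e heP
    have hsum := D.sum_inc_rest hA (S e)
    rw [hrest] at hsum
    have hts := D.tot_split hA (S e)
    obtain ⟨h, hh, hhe⟩ : ∃ h ∈ H, D.eta < D.tot h (S e) := by
      by_contra hall
      push Not at hall
      rw [sum_eq_zero (s := H) fun a ha => show D.phi a (S e) = 0 from
        Nat.sub_eq_zero_of_le (hall a ha)] at hsum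
      simp only [Data.phi] at hsum
      omega
    have hother : ∑ a ∈ H.erase h, D.phi a (S e) = 0 := by
      refine sum_eq_zero fun g hg => ?_
      by_contra hg0
      rw [← add_sum_erase _ _ hh, ← add_sum_erase _ _ hg] at hsum hts
      have : ∑ a ∈ (H.erase h).erase g, D.phi a (S e) ≤
          ∑ a ∈ (H.erase h).erase g, D.tot a (S e) := sum_le_sum fun a _ => Nat.sub_le _ _
      simp only [Data.phi] at hsum hg0 this
      omega
    rw [← add_sum_erase _ _ hh, hother] at hsum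
    have hone' := D.anti_mono hA (show {h} ⊆ H by simpa using hh)
    have hts1 := D.tot_split hone' (S e)
    have hds := D.dlt_split hone' (S e)
    rw [sum_singleton] at hts1 hds
    have q1 := D.ext_le_dlt h (S e)
    have q2 := D.ext_le_dlt t (S e)
    have k1 : D.cutN (D.rest t {h}) (S e) < D.eta := by
      simp only [Data.phi] at hsum; omega
    have k2 : D.cutN (D.rest t {h}) (S e) + D.ext h (S e) < D.ext t (S e) + D.eta := by
      simp only [Data.phi, Data.tot] at hsum hhe hbig hts1; omega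
    have k3 : D.phi t (S e) - D.phi h (S e) < D.eta := by omega
    have habs : ¬ D.Meets c x h ∨ ¬ D.Meets c y h := by
      by_contra hb
      push Not at hb
      exact (hHmem h hh).2.2.1 (mem_filter.2 ⟨(hHmem h hh).1, hb⟩)
    obtain ⟨c1, c2, -⟩ := hPmem e heP
    rcases habs with hx' | hy'
    · exact ⟨h, (S e)ᶜ, e.1, e.2, fun _ => ⟨hh, Or.inl ⟨rfl, rfl⟩, by simpa using hS1,
        by simpa using hS2, by rwa [D.cutN_compl], by rwa [D.cutN_compl, D.ext_compl, D.ext_compl],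
        by rwa [D.phi_compl, D.phi_compl], by rwa [c1]⟩⟩
    · exact ⟨h, S e, e.2, e.1, fun _ => ⟨hh, Or.inr ⟨rfl, rfl⟩, hS2, hS1, k1, k2, k3, by rwa [c2]⟩⟩
  choose hh A a0 a1 hd using hdata
  have hkey : ∀ e ∈ E1, (c (a0 e), A e ∩ D.B t) ∈ ({x, y} : Finset V) ×ˢ (D.B t).powerset := by
    intro e he
    obtain ⟨c1, c2, -⟩ := hPmem e (mem_filter.1 he).1
    refine mem_product.2 ⟨?_, mem_powerset.2 inter_subset_right⟩
    rcases (hd e he).2.1 with ⟨q, -⟩ | ⟨q, -⟩ <;> simp [q, c1, c2]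
  have hE1w : ∑ e ∈ E1, D.w e.1 e.2 ≤
      2 * 2 ^ D.b * (2 * (4 * D.eta * (2 * D.b + 1)) * famSize D.b) := by
    rw [← sum_fiberwise_of_maps_to hkey]
    refine (sum_le_card_nsmul _ _ (2 * (4 * D.eta * (2 * D.b + 1)) * famSize D.b)
      fun κ _ => ?_).trans ?_
    · set G := E1.filter (fun e => (c (a0 e), A e ∩ D.B t) = κ) with hG
      have hGm : ∀ e ∈ G, e ∈ E1 ∧ c (a0 e) = κ.1 ∧ A e ∩ D.B t = κ.2 := by
        intro e he
        obtain ⟨p, q⟩ := mem_filter.1 he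
        exact ⟨p, congrArg Prod.fst q, congrArg Prod.snd q⟩
      have hGP : ∀ e ∈ G, e ∈ P := fun e he => (mem_filter.1 (hGm e he).1).1
      refine D.group_bound hA G hh A a0 a1 heta (by omega) hθ.2.1
        (fun e he => (hd e (hGm e he).1).1) (fun e he => (hd e (hGm e he).1).2.1)
        (fun e he => (hPmem e (hGP e he)).2.2) (fun e he => hrest ▸ hnuJ e (hGP e he))
        (fun e he => (hd e (hGm e he).1).2.2.1) (fun e he => (hd e (hGm e he).1).2.2.2.1)
        (fun e he => (hd e (hGm e he).1).2.2.2.2.1) (fun e he => (hd e (hGm e he).1).2.2.2.2.2.1)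
        (fun e he f hf v hv => ?_) (fun e he => ?_)
      · have := congrArg (fun T : Finset V => v ∈ T) ((hGm e he).2.2.trans (hGm f hf).2.2.symm)
        simpa [hv] using this
      · obtain ⟨c1, c2, c3⟩ := hPmem e (hGP e he)
        obtain ⟨b1, b2⟩ := D.nu_in c3
        have hnu : D.nu e.1 e.2 ∈ D.sub t := (mem_filter.1 (hnuJ e (hGP e he))).1
        obtain ⟨r, hr, hrS⟩ := hside (a0 e)
          (by rcases (hd e (hGm e he).1).2.1 with ⟨q, -⟩ | ⟨q, -⟩ <;> rw [q]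
              exacts [D.mem_verts.2 ⟨_, hnu, b1⟩, D.mem_verts.2 ⟨_, hnu, b2⟩])
          (by rcases (hd e (hGm e he).1).2.1 with ⟨q, -⟩ | ⟨q, -⟩ <;> simp [q, c1, c2])
        refine ⟨r, hr, fun f hf => ?_⟩
        obtain ⟨m1, -, -, -, -, -, m7, m8⟩ := hd f (hGm f hf).1
        exact hrS (hh f) (hHmem _ m1).1 (hHmem _ m1).2.1
          (by rw [(hGm e he).2.1, ← (hGm f hf).2.1]; exact m8) (A f) m7
    · rw [smul_eq_mul]
      refine Nat.mul_le_mul_right _ ?_
      rw [card_product, card_powerset]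
      exact Nat.mul_le_mul (card_le_two) (Nat.pow_le_pow_right (by omega) (D.size t))
  have hsplit : ∑ e ∈ P, D.w e.1 e.2 = ∑ e ∈ E0, D.w e.1 e.2 + ∑ e ∈ E1, D.w e.1 e.2 :=
    (sum_filter_add_sum_filter_not _ _ _).symm
  have hmain : ∑ e ∈ P, D.w e.1 e.2 ≤ bundleConst D.b * D.eta := by
    rw [hsplit, bundleConst, Nat.add_mul]
    refine Nat.add_le_add (hE0w.trans (le_of_eq (by ring))) (hE1w.trans (le_of_eq (by ring)))
  have := Nat.mul_le_mul_left D.b hmain
  rw [← Nat.mul_assoc] at this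
  omega

end Vale.P061.TW
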