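import Mathlib

/-!
# P061: two selection lemmas

A weighted digraph of small out weight has a large independent set; and a colouring rule with
an order condition admits no large index set.
-/

namespace Vale.P061.TW

open Finset
open scoped Classical

theorem extract {α : Type} [DecidableEq α] (w : α → ℕ) (out : α → Finset α) (ε : ℕ) :
    ∀ m, ∀ G : Finset α, (∀ e ∈ G, ∑ f ∈ G.filter (· ∈ out e), w f ≤ ε) →
      (∀ e ∈ G, e ∈ out e) → (∀ e ∈ G, 0 < w e) → 2 * ε * m < ∑ e ∈ G, w e →
      ∃ U ⊆ G, U.card = m ∧ ∀ e ∈ U, ∀ f ∈ U, e ≠ f → f ∉ out e := by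
  intro m
  induction m with
  | zero => exact fun G _ _ _ _ => ⟨∅, empty_subset _, rfl, by simp⟩
  | succ m ih =>
    intro G hout hself hpos hlt
    obtain ⟨e, he, hin⟩ : ∃ e ∈ G, ∑ f ∈ G.filter (fun f => e ∈ out f), w f ≤ ε := by
      by_contra hno
      push Not at hno
      have hsum : ∑ e ∈ G, w e * ∑ f ∈ G.filter (fun f => e ∈ out f), w f =
          ∑ f ∈ G, w f * ∑ e ∈ G.filter (· ∈ out f), w e := by
        simp only [mul_sum, sum_filter]
        rw [sum_comm]
        exact sum_congr rfl fun f _ => sum_congr rfl fun e _ => by split_ifs <;> ring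
      obtain ⟨e0, he0⟩ : G.Nonempty := by
        by_contra h
        simp [not_nonempty_iff_eq_empty.1 h] at hlt
      have h1 : ∑ e ∈ G, w e * ε < ∑ e ∈ G, w e * ∑ f ∈ G.filter (fun f => e ∈ out f), w f :=
        sum_lt_sum (fun e he => Nat.mul_le_mul_left _ (hno e he).le)
          ⟨e0, he0, Nat.mul_lt_mul_of_pos_left (hno e0 he0) (hpos e0 he0)⟩
      rw [hsum] at h1
      exact absurd h1 (not_lt.2 (sum_le_sum fun f hf => Nat.mul_le_mul_left _ (hout f hf)))
    let R := G.filter (fun f => f ∈ out e ∨ e ∈ out f)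
    have hR : ∑ f ∈ R, w f ≤ 2 * ε := by
      calc ∑ f ∈ R, w f ≤ ∑ f ∈ G.filter (· ∈ out e) ∪ G.filter (fun f => e ∈ out f), w f :=
            sum_le_sum_of_subset (by intro f; simp [R]; tauto)
        _ ≤ ∑ f ∈ G.filter (· ∈ out e), w f + ∑ f ∈ G.filter (fun f => e ∈ out f), w f :=
            le_trans (Nat.le_add_right _ _) (sum_union_inter (f := w)).le
        _ ≤ 2 * ε := by have := hout e he; omega
    have hsplit := sum_sdiff (f := w) (filter_subset (fun f => f ∈ out e ∨ e ∈ out f) G)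
    obtain ⟨U, hU, hcard, hind⟩ := ih (G \ R)
      (fun f hf => le_trans (sum_le_sum_of_subset (filter_subset_filter _ sdiff_subset))
        (hout f (mem_sdiff.1 hf).1))
      (fun f hf => hself f (mem_sdiff.1 hf).1) (fun f hf => hpos f (mem_sdiff.1 hf).1)
      (by
        change ∑ f ∈ G \ R, w f + ∑ f ∈ R, w f = _ at hsplit
        rw [Nat.mul_add] at hlt
        omega)
    have heU : e ∉ U := fun h => (mem_sdiff.1 (hU h)).2 (by simp [R, he, hself e he])
    refine ⟨insert e U, insert_subset he (hU.trans sdiff_subset),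
      by rw [card_insert_of_notMem heU, hcard], ?_⟩
    intro a ha c hc hne
    rcases mem_insert.1 ha with ha' | ha' <;> rcases mem_insert.1 hc with hc' | hc'
    · exact absurd (ha'.trans hc'.symm) hne
    · intro h
      exact (mem_sdiff.1 (hU hc')).2 (mem_filter.2 ⟨(mem_sdiff.1 (hU hc')).1, Or.inl (ha' ▸ h)⟩)
    · intro h
      exact (mem_sdiff.1 (hU ha')).2 (mem_filter.2 ⟨(mem_sdiff.1 (hU ha')).1, Or.inr (hc' ▸ h)⟩)
    · exact hind a ha' c hc' hne

theorem inj_colour {α κ : Type} [DecidableEq α] [DecidableEq κ] (χ : α → α → κ) (pos : α → α → ℕ) (q : ℕ) (hq : 1 ≤ q) :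
    ∀ r, ∀ I : Finset α,
      (∀ a ∈ I, ∀ c ∈ I, ∀ l ∈ I, a ≠ c → a ≠ l → c ≠ l → χ a l = χ c l → pos a c < pos a l) →
      (∀ l ∈ I, ((I.erase l).image (χ · l)).card ≤ q) → (q + 1) ^ r ≤ I.card →
      ∃ U ⊆ I, ∃ l ∈ I, l ∉ U ∧ U.card = r ∧ Set.InjOn (χ · l) (U : Set α) := by
  intro r
  induction r with
  | zero =>
    intro I _ _ hI
    obtain ⟨l, hl⟩ := card_pos.1 (show 0 < I.card by simpa using hI)
    exact ⟨∅, empty_subset _, l, hl, by simp, rfl, by simp⟩
  | succ r ih =>
    intro I hord hcol hI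
    have hq1 : 1 ≤ (q + 1) ^ r := Nat.one_le_pow _ _ (by omega)
    have hbig : q * (q + 1) ^ r + 1 ≤ I.card := by
      rw [pow_succ] at hI
      nlinarith
    obtain ⟨l1, hl1⟩ := card_pos.1 (show 0 < I.card by omega)
    have hE : (I.erase l1).card + 1 = I.card := card_erase_add_one hl1
    have hne : ((I.erase l1).image (χ · l1)).Nonempty :=
      Nonempty.image (card_pos.1 (by nlinarith)) _
    obtain ⟨y, -, hy⟩ := exists_le_card_fiber_of_mul_le_card_of_maps_to
      (fun a ha => mem_image_of_mem (χ · l1) ha) hne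
      (le_trans (Nat.mul_le_mul_right ((q + 1) ^ r) (hcol l1 hl1)) (by omega))
    set C := (I.erase l1).filter fun a => χ a l1 = y with hC
    have hCI : C ⊆ I := (filter_subset _ _).trans (erase_subset _ _)
    obtain ⟨U, hU, l, hl, hlU, hcard, hinj⟩ := ih C
      (fun a ha c hc m hm => hord a (hCI ha) c (hCI hc) m (hCI hm))
      (fun m hm => le_trans (card_le_card (image_subset_image (erase_subset_erase _ hCI)))
        (hcol m (hCI hm))) hy
    have hl1C : ∀ a ∈ C, a ≠ l1 := fun a ha => (mem_erase.1 (mem_filter.1 ha).1).1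
    have hl1U : l1 ∉ U := fun h => hl1C l1 (hU h) rfl
    have hkey : ∀ u ∈ U, χ l1 l ≠ χ u l := by
      intro u hu h
      have hul : u ≠ l := fun e => hlU (e ▸ hu)
      have a := hord u (hCI (hU hu)) l1 hl1 l (hCI hl) (hl1C u (hU hu)) hul
        (hl1C l hl).symm h.symm
      have c := hord u (hCI (hU hu)) l (hCI hl) l1 hl1 hul (hl1C u (hU hu)) (hl1C l hl)
        ((mem_filter.1 (hU hu)).2.trans (mem_filter.1 hl).2.symm)
      omega
    refine ⟨insert l1 U, insert_subset hl1 (hU.trans hCI), l, hCI hl,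
      by simp [hlU, hl1C l hl], by rw [card_insert_of_notMem hl1U, hcard], ?_⟩
    intro a ha c hc h
    rcases mem_insert.1 (mem_coe.1 ha) with ha' | ha' <;>
      rcases mem_insert.1 (mem_coe.1 hc) with hc' | hc'
    · exact ha'.trans hc'.symm
    · exact absurd (ha' ▸ h) (hkey c hc')
    · exact absurd (hc' ▸ h).symm (hkey a ha')
    · exact hinj ha' hc' h

theorem no_colouring {α κ : Type} [DecidableEq α] [DecidableEq κ] (χ : α → α → κ) (pos : α → α → ℕ) (q : ℕ) (hq : 1 ≤ q)
    (I : Finset α)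
    (hord : ∀ a ∈ I, ∀ c ∈ I, ∀ l ∈ I, a ≠ c → a ≠ l → c ≠ l → χ a l = χ c l →
      pos a c < pos a l)
    (hcol : ∀ l ∈ I, ((I.erase l).image (χ · l)).card ≤ q) :
    I.card < (q + 1) ^ (q + 1) := by
  by_contra h
  obtain ⟨U, hU, l, hl, hlU, hcard, hinj⟩ := inj_colour χ pos q hq (q + 1) I hord hcol (not_lt.1 h)
  have h1 : (U.image (χ · l)).card = q + 1 := by rw [card_image_of_injOn hinj, hcard]
  have h2 : (U.image (χ · l)).card ≤ q :=
    le_trans (card_le_card (image_subset_image fun u hu =>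
      mem_erase.2 ⟨ne_of_mem_of_not_mem hu hlU, hU hu⟩)) (hcol l hl)
  omega

end Vale.P061.TW
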