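import Vale.Agent.P061.Treewidth.Part
import Vale.Agent.P061.Treewidth.Pigeon

/-!
# P061: a group of edges with alike witnesses is light

Each edge of the group has a witness set which is cheap outside the subtree of one hole.
Many pairwise independent witnesses contradict the edge connectivity.
-/

namespace Vale.P061.TW

open Finset
open scoped Classical

variable {V ι : Type} [Fintype V] [Fintype ι] (D : Data V ι)

/-- Size of the independent family that is impossible. -/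
def famSize (b : ℕ) : ℕ := (2 * (b + 1) + 1) ^ (2 * (b + 1) + 1)

/-- Bound used for the flip step. -/
def flipConst (b : ℕ) : ℕ := (famSize b + 1) * b + 1 + famSize b * (b + 1)

theorem Data.rest_empty (t : ι) : D.rest t ∅ = D.sub t := by simp [Data.rest]

theorem Data.anti_empty (t : ι) : D.Anti t ∅ := ⟨by simp, by simp⟩

theorem Data.anti_mono {t : ι} {H H' : Finset ι} (hH : D.Anti t H) (h : H' ⊆ H) : D.Anti t H' :=
  ⟨fun a ha => hH.1 a (h ha), fun a ha c hc => hH.2 a (h ha) c (h hc)⟩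

theorem Data.rest_anti (t : ι) {H H' : Finset ι} (h : H' ⊆ H) : D.rest t H ⊆ D.rest t H' :=
  sdiff_subset_sdiff subset_rfl (biUnion_subset_biUnion_of_subset_left _ h)

theorem Data.mem_rest_self {t : ι} {H : Finset ι} (hH : D.Anti t H) : t ∈ D.rest t H := by
  refine mem_sdiff.2 ⟨D.mem_sub_self t, fun h => ?_⟩
  obtain ⟨a, ha, hta⟩ := mem_biUnion.1 h
  exact (hH.1 a ha).2 (D.below_antisymm (D.mem_sub.1 (hH.1 a ha).1) (D.mem_sub.1 hta))

theorem Data.exists_part_rest [Nonempty V] (t : ι) (H : Finset ι) (θ : ℕ)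
    (hθ : 4 * θ ≤ D.k) (hθ0 : 1 ≤ θ) :
    Nonempty (Part D (D.rest t H) ((H.card + 1) * D.b + 1) θ) := by
  by_cases hU : (D.verts (D.rest t H)).Nonempty
  · obtain ⟨a0, ha0⟩ := hU
    set Bd := insert a0 ((D.B t ∪ H.biUnion D.B) ∩ D.verts (D.rest t H)) with hBd
    refine D.exists_part _ Bd _ θ ?_ hθ hθ0 ⟨a0, mem_insert_self _ _⟩
      (insert_subset ha0 inter_subset_right) ?_
    · refine (card_insert_le _ _).trans (Nat.succ_le_succ ?_)
      refine (card_le_card inter_subset_left).trans ((card_union_le _ _).trans ?_)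
      have h1 := D.size t
      have h2 : (H.biUnion D.B).card ≤ H.card * D.b := card_biUnion_le_card_mul _ _ _ fun a _ => D.size a
      rw [Nat.succ_mul]
      omega
    · intro v hv hvB s hvs
      simp only [hBd, mem_insert, mem_inter, hv, and_true, mem_union, mem_biUnion, not_or,
        not_exists, not_and] at hvB
      obtain ⟨s0, hs0, hvs0⟩ := D.mem_verts.1 hv
      rw [Data.rest, mem_sdiff] at hs0 ⊢
      refine ⟨D.dead_spec (D.mem_dead hs0.1 hvs0 hvB.2.1) hvs, fun h => hs0.2 ?_⟩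
      obtain ⟨a, ha, hsa⟩ := mem_biUnion.1 h
      exact mem_biUnion.2 ⟨a, ha, D.dead_spec (D.mem_dead hsa hvs (hvB.2.2 a ha)) hvs0⟩
  · rw [not_nonempty_iff_eq_empty] at hU
    have : NeZero (Fintype.card V) := ⟨Fintype.card_ne_zero⟩
    exact ⟨⟨fun _ => 0, fun S _ a ha => by simp [hU] at ha, by simp [Data.inter, hU], by simp [hU]⟩⟩

theorem Data.inter_eq (N : Finset ι) (p : V → Fin (Fintype.card V)) :
    D.inter N p = ∑ u, ∑ v, if p u = p v then 0 else D.wN N u v := by
  have hz : ∀ u v, u ∉ D.verts N ∨ v ∉ D.verts N → D.wN N u v = 0 := by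
    intro u v h
    by_cases hN : D.nu u v ∈ N
    · rcases Nat.eq_zero_or_pos (D.w u v) with h0 | h0
      · simp [Data.wN, h0]
      · obtain ⟨h1, h2⟩ := D.nu_in h0
        rcases h with h | h
        exacts [absurd (D.mem_verts.2 ⟨_, hN, h1⟩) h, absurd (D.mem_verts.2 ⟨_, hN, h2⟩) h]
    · simp [Data.wN, hN]
  rw [Data.inter, sum_subset (subset_univ _) fun u _ hu => sum_eq_zero fun v _ => by
    rw [hz u v (Or.inl hu)]; simp]
  exact sum_congr rfl fun u _ => sum_subset (subset_univ _) fun v _ hv => by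
    rw [hz u v (Or.inr hv)]; simp

theorem Data.cutN_flip (N : Finset ι) {A C : Finset V} (h : C ⊆ A) :
    D.cutN N A + 2 * ∑ u ∈ C, ∑ v ∈ A \ C, D.wN N u v = D.cutN N C + D.cutN N (A \ C) := by
  have e1 : Cᶜ = Aᶜ ∪ A \ C := by
    ext v; simp; have := @h v; tauto
  have e2 : (A \ C)ᶜ = Aᶜ ∪ C := by
    ext v; simp; have := @h v; tauto
  have hA : A = C ∪ A \ C := (union_sdiff_of_subset h).symm
  have a1 : D.cutN N C = (∑ u ∈ C, ∑ v ∈ Aᶜ, D.wN N u v) + ∑ u ∈ C, ∑ v ∈ A \ C, D.wN N u v := by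
    rw [Data.cutN, e1, ← sum_add_distrib]
    exact sum_congr rfl fun u _ => sum_union (disjoint_left.2 fun v a c => by simp at a c; exact a c.1)
  have a2 : D.cutN N (A \ C) =
      (∑ u ∈ A \ C, ∑ v ∈ Aᶜ, D.wN N u v) + ∑ u ∈ C, ∑ v ∈ A \ C, D.wN N u v := by
    rw [Data.cutN, e2, sum_comm (s := C), ← sum_add_distrib]
    refine sum_congr rfl fun u _ => ?_
    rw [sum_union (disjoint_left.2 fun v a c => by simp at a; exact a (h c))]
    congr 1
    exact sum_congr rfl fun v _ => D.wN_comm N u v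
  have a3 : D.cutN N A = (∑ u ∈ C, ∑ v ∈ Aᶜ, D.wN N u v) + ∑ u ∈ A \ C, ∑ v ∈ Aᶜ, D.wN N u v := by
    rw [Data.cutN]
    nth_rw 1 [hA]
    exact sum_union disjoint_sdiff
  omega

theorem seq_of_rtg {α : Type} {r : α → α → Prop} {a c : α} (h : Relation.ReflTransGen r a c) :
    ∃ (f : ℕ → α) (n : ℕ), f 0 = a ∧ f n = c ∧ ∀ s < n, r (f s) (f (s + 1)) := by
  induction h with
  | refl => exact ⟨fun _ => a, 0, rfl, rfl, by simp⟩
  | @tail y z _ h2 ih =>
    obtain ⟨f, n, h0, hn, hs⟩ := ih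
    refine ⟨fun s => if s ≤ n then f s else z, n + 1, by simp [h0], by simp, fun s hsn => ?_⟩
    simp only
    rw [if_pos (show s ≤ n by omega)]
    by_cases e : s + 1 ≤ n
    · rw [if_pos e]; exact hs s (by omega)
    · rw [if_neg e, show s = n by omega, hn]; exact h2

/-- A group of edges with alike witnesses is light. -/
theorem Data.group_bound [Nonempty V] {t : ι} {H : Finset ι} (hH : D.Anti t H)
    (G : Finset (V × V)) (hh : V × V → ι) (A : V × V → Finset V) (u0 u1 : V × V → V)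
    (heta : 1 ≤ D.eta) (h4 : 4 * D.eta ≤ D.k)
    (hflip : D.eta + 8 * flipConst D.b * D.eta ≤ D.k)
    (hhole : ∀ e ∈ G, hh e ∈ H)
    (hend : ∀ e ∈ G, (u0 e = e.1 ∧ u1 e = e.2) ∨ (u0 e = e.2 ∧ u1 e = e.1))
    (hpos : ∀ e ∈ G, 0 < D.w e.1 e.2) (hnu : ∀ e ∈ G, D.nu e.1 e.2 ∈ D.rest t H)
    (h0 : ∀ e ∈ G, u0 e ∉ A e) (h1 : ∀ e ∈ G, u1 e ∈ A e)
    (hR : ∀ e ∈ G, D.cutN (D.rest t {hh e}) (A e) < D.eta)
    (hgain : ∀ e ∈ G, D.cutN (D.rest t {hh e}) (A e) + D.ext (hh e) (A e) <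
      D.ext t (A e) + D.eta)
    (hpat : ∀ e ∈ G, ∀ f ∈ G, ∀ v ∈ D.B t, (v ∈ A e ↔ v ∈ A f))
    (hside : ∀ e ∈ G, ∃ r ∈ D.B t, ∀ f ∈ G, (u0 e ∈ A f ↔ r ∈ A f)) :
    ∑ e ∈ G, D.w e.1 e.2 ≤ 2 * (4 * D.eta * (2 * D.b + 1)) * famSize D.b := by
  by_contra hheavy
  have hone : ∀ a ∈ H, D.Anti t {a} := fun a ha => D.anti_mono hH (by simpa using ha)
  have hends : ∀ N : Finset ι, D.rest t H ⊆ N → ∀ e ∈ G, e.1 ∈ D.verts N ∧ e.2 ∈ D.verts N := by
    intro N hN e he
    obtain ⟨a, c⟩ := D.nu_in (hpos e he)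
    exact ⟨D.mem_verts.2 ⟨_, hN (hnu e he), a⟩, D.mem_verts.2 ⟨_, hN (hnu e he), c⟩⟩
  have hpart : ∀ a, ∃ p : V → Fin (Fintype.card V), a ∈ H →
      D.inter (D.rest t {a}) p ≤ 4 * D.eta * (2 * D.b + 1) ∧
      ∀ S : Finset V, D.cutN (D.rest t {a}) S < D.eta → ∀ u ∈ D.verts (D.rest t {a}),
        ∀ v ∈ D.verts (D.rest t {a}), p u = p v → (u ∈ S ↔ v ∈ S) := by
    intro a
    by_cases ha : a ∈ H
    · obtain ⟨P⟩ := D.exists_part_rest t {a} D.eta h4 heta
      exact ⟨P.p, fun _ => ⟨by simpa using P.inter_le, P.mono⟩⟩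
    · have : NeZero (Fintype.card V) := ⟨Fintype.card_ne_zero⟩
      exact ⟨fun _ => 0, fun h => absurd h ha⟩
  choose pp hpp using hpart
  have hsub1 : ∀ a ∈ H, D.rest t H ⊆ D.rest t {a} := fun a ha => D.rest_anti t (by simpa using ha)
  have hsep : ∀ e ∈ G, pp (hh e) e.1 ≠ pp (hh e) e.2 := by
    intro e he heq
    have ha := hhole e he
    have := (hpp _ ha).2 _ (hR e he) _ (hends _ (hsub1 _ ha) e he).1 _
      (hends _ (hsub1 _ ha) e he).2 heq
    have a0 := h0 e he
    have a1 := h1 e he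
    rcases hend e he with ⟨x, y⟩ | ⟨x, y⟩ <;> rw [x] at a0 <;> rw [y] at a1 <;> tauto
  obtain ⟨U, hUG, hcard, hind⟩ := extract (fun e : V × V => D.w e.1 e.2)
    (fun e => G.filter fun f => pp (hh e) f.1 ≠ pp (hh e) f.2) (4 * D.eta * (2 * D.b + 1))
    (famSize D.b) G
    (fun e he => by
      refine le_trans ?_ (hpp _ (hhole e he)).1
      have key : ∀ f ∈ G, pp (hh e) f.1 ≠ pp (hh e) f.2 →
          D.w f.1 f.2 = if pp (hh e) f.1 = pp (hh e) f.2 then 0 else
            D.wN (D.rest t {hh e}) f.1 f.2 := by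
        intro f hf hne
        simp [hne, Data.wN, hsub1 _ (hhole e he) (hnu f hf)]
      rw [D.inter_eq, ← Fintype.sum_prod_type']
      refine le_trans (le_of_eq (sum_congr rfl fun f hf => ?_)) (sum_le_univ_sum_of_nonneg
        fun f => Nat.zero_le _)
      obtain ⟨a, c⟩ := mem_filter.1 hf
      exact key f a (mem_filter.1 c).2)
    (fun e he => mem_filter.2 ⟨he, hsep e he⟩) hpos (not_le.1 hheavy)
  have hlab : ∀ i ∈ U, ∀ j ∈ U, i ≠ j → pp (hh j) i.1 = pp (hh j) i.2 := by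
    intro i hi j hj hne
    by_contra h
    exact hind j hj i hi (Ne.symm hne) (mem_filter.2 ⟨hUG hi, h⟩)
  have hinj : ∀ i ∈ U, ∀ j ∈ U, hh i = hh j → i = j := fun i hi j hj h => by
    by_contra hne
    exact hsep i (hUG hi) (h ▸ hlab i hi j hj hne)
  have huncr : ∀ i ∈ U, ∀ j ∈ U, i ≠ j → u1 i ∉ A j := by
    intro i hi j hj hne
    have ha := hhole j (hUG hj)
    obtain ⟨r, hr, hrS⟩ := hside i (hUG hi)
    have a0 : u0 i ∉ A j := fun h => h0 i (hUG hi)
      ((hrS i (hUG hi)).2 ((hpat j (hUG hj) i (hUG hi) r hr).1 ((hrS j (hUG hj)).1 h)))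
    have := (hpp _ ha).2 _ (hR j (hUG hj)) _ (hends _ (hsub1 _ ha) i (hUG hi)).1 _
      (hends _ (hsub1 _ ha) i (hUG hi)).2 (hlab i hi j hj hne)
    rcases hend i (hUG hi) with ⟨x, y⟩ | ⟨x, y⟩ <;> rw [x] at a0 <;> rw [y] <;> tauto
  -- optimal extensions in the holes
  have hopt : ∀ i, ∃ S : Finset V, i ∈ U →
      (∀ v, v ∉ D.dead (hh i) → (v ∈ S ↔ v ∈ A i)) ∧ D.dlt (hh i) S = D.ext (hh i) (A i) ∧
      D.cutN (D.rest t {hh i}) S = D.cutN (D.rest t {hh i}) (A i) ∧
      ∀ v ∈ D.B t, v ∈ S ↔ v ∈ A i := by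
    intro i
    by_cases hi : i ∈ U
    · obtain ⟨S, a, c, d, e⟩ := D.exists_opt (hone _ (hhole i (hUG hi))) (A i)
      exact ⟨S, fun _ => ⟨fun v hv => a v (by simpa using hv), c _ (mem_singleton_self _), d, e⟩⟩
    · exact ⟨∅, fun h => absurd h hi⟩
  choose As hAs using hopt
  have hendA : ∀ i ∈ U, ∀ j ∈ U, ∀ v, (v = j.1 ∨ v = j.2) → (v ∈ As i ↔ v ∈ A i) := by
    intro i hi j hj v hv
    refine (hAs i hi).1 v fun hd => ?_
    have := D.nu_in (hpos j (hUG hj))
    have hs : D.nu j.1 j.2 ∈ D.sub (hh i) := D.dead_spec hd (by rcases hv with rfl | rfl <;> tauto)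
    exact (mem_sdiff.1 (hnu j (hUG hj))).2 (mem_biUnion.2 ⟨_, hhole i (hUG hi), hs⟩)
  have hu1e : ∀ i ∈ U, u1 i = i.1 ∨ u1 i = i.2 := fun i hi => by
    rcases hend i (hUG hi) with h | h <;> simp [h.2]
  have hu0e : ∀ i ∈ U, u0 i = i.1 ∨ u0 i = i.2 := fun i hi => by
    rcases hend i (hUG hi) with h | h <;> simp [h.1]
  -- regions
  set Hs := U.image hh with hHs
  have hHsH : Hs ⊆ H := image_subset_iff.2 fun i hi => hhole i (hUG hi)
  have hAHs := D.anti_mono hH hHsH
  let NN : Option (V × V) → Finset ι := fun n => n.elim (D.rest t Hs) fun l => D.sub (hh l)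
  obtain ⟨P0⟩ := D.exists_part_rest t Hs D.eta h4 heta
  have hPs : ∀ a, Nonempty (Part D (D.sub a) (D.b + 1) D.eta) := fun a => by
    have := D.exists_part_rest a ∅ D.eta h4 heta
    rw [D.rest_empty] at this
    simpa using this
  have PS : ∀ a, Part D (D.sub a) (D.b + 1) D.eta := fun a => Classical.choice (hPs a)
  let qq : Option (V × V) → V → Fin (Fintype.card V) := fun n => n.elim P0.p fun l => (PS (hh l)).p
  let Same : Option (V × V) → V → V → Prop := fun n u v =>
    u ∈ D.verts (NN n) ∧ v ∈ D.verts (NN n) ∧ qq n u = qq n v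
  have hcover : D.rest t H ⊆ NN none := D.rest_anti t hHsH
  have hNsub : ∀ n ∈ insertNone U, NN n ⊆ D.sub t := by
    rintro (_ | l) hn
    · exact sdiff_subset
    · exact D.sub_mono (hH.1 _ (hhole l (hUG (some_mem_insertNone.1 hn)))).1
  have hall : ∀ s ∈ D.sub t, ∃ n ∈ insertNone U, s ∈ NN n := by
    intro s hs
    by_cases h : s ∈ Hs.biUnion D.sub
    · obtain ⟨a, ha, hsa⟩ := mem_biUnion.1 h
      obtain ⟨l, hl, rfl⟩ := mem_image.1 ha
      exact ⟨some l, some_mem_insertNone.2 hl, hsa⟩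
    · exact ⟨none, none_mem_insertNone, mem_sdiff.2 ⟨hs, h⟩⟩
  have hkeep : ∀ i ∈ U, ∀ n ∈ insertNone U, n ≠ some i → ∀ u v, Same n u v →
      (u ∈ As i ↔ v ∈ As i) := by
    intro i hi n hn hne u v ⟨hu, hv, huv⟩
    have hlow : D.cutN (NN n) (As i) < D.eta := by
      refine lt_of_le_of_lt ((D.cutN_mono ?_ _).trans_eq (hAs i hi).2.2.1) (hR i (hUG hi))
      rcases n with _ | l
      · exact D.rest_anti t (singleton_subset_iff.2 (mem_image_of_mem hh hi))
      · have hl := some_mem_insertNone.1 hn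
        intro s hs
        refine mem_sdiff.2 ⟨hNsub _ hn hs, fun h => ?_⟩
        rw [singleton_biUnion] at h
        have hne' : hh l ≠ hh i := fun e => hne (congrArg some (hinj l hl i hi e))
        exact disjoint_left.1 (D.sub_disjoint (hH.2 _ (hhole l (hUG hl)) _ (hhole i (hUG hi)) hne')
          (hH.2 _ (hhole i (hUG hi)) _ (hhole l (hUG hl)) hne'.symm)) hs h
    rcases n with _ | l
    · exact P0.mono _ hlow u hu v hv huv
    · exact (PS (hh l)).mono _ hlow u hu v hv huv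
  let step : (V × V) → V → V → Prop := fun i u v =>
    v ∈ As i ∧ ∃ n ∈ insertNone U, Same n u v
  have hpath : ∀ i, ∃ (f : ℕ → V) (n : ℕ), i ∈ U →
      f 0 = u1 i ∧ f n ∈ D.B t ∧ ∀ s < n, step i (f s) (f (s + 1)) := by
    intro i
    by_cases hi : i ∈ U
    swap
    · exact ⟨fun _ => Classical.arbitrary V, 0, fun h => absurd h hi⟩
    suffices ∃ y ∈ D.B t, Relation.ReflTransGen (step i) (u1 i) y by
      obtain ⟨y, hy, hr⟩ := this
      obtain ⟨f, n, a, c, d⟩ := seq_of_rtg hr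
      exact ⟨f, n, fun _ => ⟨a, c ▸ hy, d⟩⟩
    by_contra hno
    push Not at hno
    set C := univ.filter fun v => Relation.ReflTransGen (step i) (u1 i) v with hC
    have hu1A : u1 i ∈ As i := (hendA i hi i hi _ (hu1e i hi)).2 (h1 i (hUG hi))
    have hmemC : ∀ v, v ∈ C ↔ Relation.ReflTransGen (step i) (u1 i) v := by simp [hC]
    have hCprop : ∀ v ∈ C, v ∈ As i ∧ v ∈ D.dead t := by
      intro v hv
      have hvB : v ∉ D.B t := fun h => hno v h ((hmemC v).1 hv)
      rcases Relation.ReflTransGen.cases_tail ((hmemC v).1 hv) with rfl | ⟨u, -, hvA, n, hn, hs⟩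
      · have := hends _ sdiff_subset i (hUG hi)
        obtain ⟨s, hs, hvs⟩ := D.mem_verts.1
          (show u1 i ∈ D.verts (D.sub t) by rcases hu1e i hi with h | h <;> rw [h] <;> tauto)
        exact ⟨hu1A, D.mem_dead hs hvs hvB⟩
      · obtain ⟨s, hs', hvs⟩ := D.mem_verts.1 hs.2.1
        exact ⟨hvA, D.mem_dead (hNsub n hn hs') hvs hvB⟩
    have hCA : C ⊆ As i := fun v hv => (hCprop v hv).1
    have hX : ∑ u ∈ C, ∑ v ∈ As i \ C, D.wN (D.sub t) u v ≤ 4 * D.eta * flipConst D.b := by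
      calc ∑ u ∈ C, ∑ v ∈ As i \ C, D.wN (D.sub t) u v
          ≤ ∑ u ∈ C, ∑ v ∈ As i \ C, ∑ n ∈ insertNone U,
              if qq n u = qq n v then 0 else D.wN (NN n) u v := by
            refine sum_le_sum fun u hu => sum_le_sum fun v hv => ?_
            by_cases hN : D.nu u v ∈ D.sub t
            swap
            · simp [Data.wN, hN]
            rcases Nat.eq_zero_or_pos (D.w u v) with h0w | h0w
            · simp [Data.wN, h0w]
            obtain ⟨n, hn, hnn⟩ := hall _ hN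
            obtain ⟨a, c⟩ := D.nu_in h0w
            obtain ⟨hvA, hvC⟩ := mem_sdiff.1 hv
            have hne : qq n u ≠ qq n v := fun h => hvC ((hmemC v).2 (((hmemC u).1 hu).tail
              ⟨hvA, n, hn, D.mem_verts.2 ⟨_, hnn, a⟩, D.mem_verts.2 ⟨_, hnn, c⟩, h⟩))
            refine le_trans (le_of_eq ?_) (single_le_sum (fun _ _ => Nat.zero_le _) hn)
            simp [Data.wN, hN, hne, hnn]
        _ = ∑ n ∈ insertNone U, ∑ u ∈ C, ∑ v ∈ As i \ C,
              if qq n u = qq n v then 0 else D.wN (NN n) u v := by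
            rw [sum_comm (s := insertNone U)]
            exact sum_congr rfl fun u _ => sum_comm
        _ ≤ ∑ n ∈ insertNone U, D.inter (NN n) (qq n) := sum_le_sum fun n _ => by
            rw [D.inter_eq]
            exact (sum_le_sum fun u _ => sum_le_univ_sum_of_nonneg fun _ => Nat.zero_le _).trans
              (sum_le_univ_sum_of_nonneg fun _ => Nat.zero_le _)
        _ ≤ 4 * D.eta * ((Hs.card + 1) * D.b + 1) + U.card * (4 * D.eta * (D.b + 1)) := by
            rw [sum_insertNone]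
            refine Nat.add_le_add P0.inter_le ?_
            exact sum_le_card_nsmul _ _ _ fun l _ => (PS (hh l)).inter_le
        _ ≤ _ := by
            have : Hs.card ≤ famSize D.b := hcard ▸ card_image_le
            rw [hcard, flipConst]
            have := Nat.mul_le_mul_left (4 * D.eta)
              (Nat.succ_le_succ (Nat.mul_le_mul_right D.b (Nat.succ_le_succ this)))
            simp only [Nat.mul_add, Nat.succ_eq_add_one] at this ⊢
            linarith
    have hcutC : D.k ≤ D.dlt t C := by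
      refine (D.conn C ⟨u1 i, (hmemC _).2 Relation.ReflTransGen.refl⟩ fun h => ?_).trans
        (le_of_eq (sum_congr rfl fun u hu => sum_congr rfl fun v _ => ?_))
      · have := hCA (h ▸ mem_univ (u0 i))
        exact h0 i (hUG hi) ((hendA i hi i hi _ (hu0e i hi)).1 this)
      · rcases Nat.eq_zero_or_pos (D.w u v) with h0w | h0w
        · simp [Data.wN, h0w]
        · simp [Data.wN, D.dead_spec (hCprop u hu).2 (D.nu_in h0w).1]
    have hflip' := D.cutN_flip (D.sub t) hCA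
    have hle : D.ext t (A i) ≤ D.dlt t (As i \ C) := by
      rw [← D.ext_congr (hAs i hi).2.2.2]
      refine D.ext_le fun v hv => ?_
      have : v ∉ C := fun h => hno v hv ((hmemC v).1 h)
      simp [this]
    have hsplit := D.dlt_split (hone _ (hhole i (hUG hi))) (As i)
    rw [sum_singleton, (hAs i hi).2.1, (hAs i hi).2.2.1] at hsplit
    have := hgain i (hUG hi)
    simp only [Data.dlt] at hcutC hsplit hle
    linarith
  choose f len hf using hpath
  have hfA : ∀ i ∈ U, ∀ s ≤ len i, f i s ∈ As i := by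
    intro i hi s hs
    rcases s with _ | s
    · rw [(hf i hi).1]
      exact (hendA i hi i hi _ (hu1e i hi)).2 (h1 i (hUG hi))
    · exact ((hf i hi).2.2 s hs).1
  have hout : ∀ i ∈ U, ∀ j ∈ U, i ≠ j → f i 0 ∉ As j := fun i hi j hj hne h => by
    rw [(hf i hi).1] at h
    exact huncr i hi j hj hne ((hendA j hj i hi _ (hu1e i hi)).1 h)
  have hin : ∀ i ∈ U, ∀ j ∈ U, f i (len i) ∈ As j := fun i hi j hj =>
    ((hAs j hj).2.2.2 _ (hf i hi).2.1).2 ((hpat i (hUG hi) j (hUG hj) _ (hf i hi).2.1).1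
      (((hAs i hi).2.2.2 _ (hf i hi).2.1).1 (hfA i hi _ le_rfl)))
  have hpres : ∀ a ∈ U, ∀ c ∈ U, ∀ s ≤ len a,
      (∀ r < s, ¬ Same (some c) (f a r) (f a (r + 1))) → (f a 0 ∈ As c ↔ f a s ∈ As c) := by
    intro a ha c hc s
    induction s with
    | zero => exact fun _ _ => Iff.rfl
    | succ s ih =>
      intro hs hno
      obtain ⟨-, n, hn, hsame⟩ := (hf a ha).2.2 s hs
      exact (ih (by omega) fun r hr => hno r (by omega)).trans
        (hkeep c hc n hn (fun e => hno s (by omega) (e ▸ hsame)) _ _ hsame)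
  have hex : ∀ a ∈ U, ∀ l ∈ U, a ≠ l →
      ∃ s, s < len a ∧ Same (some l) (f a s) (f a (s + 1)) := by
    intro a ha l hl hne
    by_contra hno
    push Not at hno
    exact hout a ha l hl hne ((hpres a ha l hl _ le_rfl hno).2 (hin a ha l hl))
  let pos : V × V → V × V → ℕ := fun a l =>
    if h : ∃ s, s < len a ∧ Same (some l) (f a s) (f a (s + 1)) then Nat.find h else 0
  have hposs : ∀ a ∈ U, ∀ l ∈ U, a ≠ l →
      (pos a l < len a ∧ Same (some l) (f a (pos a l)) (f a (pos a l + 1))) ∧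
      ∀ r < pos a l, ¬ (r < len a ∧ Same (some l) (f a r) (f a (r + 1))) := by
    intro a ha l hl hne
    have h := hex a ha l hl hne
    simp only [pos, dif_pos h]
    exact ⟨Nat.find_spec h, fun r hr => Nat.find_min h hr⟩
  have hlt := no_colouring (fun a l => qq (some l) (f a (pos a l))) pos (2 * (D.b + 1)) (by omega) U
    (by
      intro a ha c hc l hl hac hal hcl heq
      by_contra hnot
      obtain ⟨⟨p1, p2⟩, -⟩ := hposs a ha l hl hal
      obtain ⟨⟨q1, q2⟩, -⟩ := hposs c hc l hl hcl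
      have e : f a (pos a l) ∈ As c :=
        (hkeep c hc (some l) (some_mem_insertNone.2 hl) (fun h => hcl (Option.some.inj h).symm) _ _
          ⟨p2.1, q2.1, heq⟩).2 (hfA c hc _ q1.le)
      refine hout a ha c hc hac ((hpres a ha c hc _ p1.le fun r hr hs => ?_).2 e)
      exact (hposs a ha c hc hac).2 r (by omega) ⟨by omega, hs⟩)
    (by
      intro l hl
      refine le_trans (card_le_card fun z hz => ?_) (PS (hh l)).labels
      obtain ⟨a, ha, rfl⟩ := mem_image.1 hz
      obtain ⟨hne, ha'⟩ := mem_erase.1 ha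
      exact mem_image_of_mem _ (hposs a ha' l hl hne).1.2.1)
  rw [hcard] at hlt
  exact lt_irrefl _ hlt

end Vale.P061.TW
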