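import Vale.Agent.P061.Treewidth.Good

/-!
# P061: thin spanning trees in graphs of bounded treewidth

Classes are merged bottom up, each time along a good edge.
-/

namespace Vale.P061.TW

open Finset
open scoped Classical

variable {V ι : Type} [Fintype V] [Fintype ι] (D : Data V ι)

/-- A merge state: classes, chosen edges and their node sets. -/
structure St where
  c : V → V
  L : Finset (V × V × Finset ι)
  pos : ∀ e ∈ L, 0 < D.w e.1 e.2.1
  good : ∀ e ∈ L, ∀ S : Finset V, e.1 ∈ S → e.2.1 ∉ S → D.eta ≤ ∑ s ∈ e.2.2, D.inc S s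
  nu_mem : ∀ e ∈ L, D.nu e.1 e.2.1 ∈ e.2.2
  same : ∀ e ∈ L, c e.1 = c e.2.1
  top : ∀ e ∈ L, ∃ tf, e.2.2 ⊆ D.sub tf ∧ ∀ z a, D.Top (D.Meets c z) a → D.dep a ≤ D.dep tf
  onJ : ∀ e ∈ L, ∀ s ∈ e.2.2, D.Meets c (c e.1) s
  one : ∀ z, D.OneTop (D.Meets c z)
  load : ∀ s, (L.filter fun e => s ∈ e.2.2).card + ((D.B s).image c).card ≤ D.b
  joined : ∀ u v, c u = c v →
    (SimpleGraph.fromRel fun p q => ∃ e ∈ L, e.1 = p ∧ e.2.1 = q).Reachable u v

/-- A class at a deepest top behaves like a vertex of the bag. -/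
theorem St.side (s : St D) (x : V) (t : ι) (ht : D.Top (D.Meets s.c x) t) (v : V)
    (hv : v ∈ D.verts (D.sub t)) (hvt : D.Meets s.c (s.c v) t) :
    ∃ r ∈ D.B t, ∀ h ∈ D.sub t, h ≠ t → ¬ D.Meets s.c (s.c v) h → ∀ S,
      D.phi t S - D.phi h S < D.eta → (v ∈ S ↔ r ∈ S) := by
  obtain ⟨v', hv', hcv'⟩ := hvt
  obtain ⟨p⟩ := s.joined v v' hcv'.symm
  induction p with
  | nil => exact ⟨_, hv', fun _ _ _ _ _ _ => Iff.rfl⟩
  | @cons a a' a'' hadj q ih =>
    by_cases ha : a ∈ D.B t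
    · exact ⟨a, ha, fun _ _ _ _ _ _ => Iff.rfl⟩
    obtain ⟨s0, hs0, hvs0⟩ := D.mem_verts.1 hv
    have hdead : a ∈ D.dead t := D.mem_dead hs0 hvs0 ha
    simp only [SimpleGraph.fromRel_adj] at hadj
    obtain ⟨e, he, hor⟩ : ∃ e ∈ s.L, (e.1 = a ∧ e.2.1 = a') ∨ (e.1 = a' ∧ e.2.1 = a) := by
      rcases hadj.2 with ⟨e, he, h⟩ | ⟨e, he, h⟩
      exacts [⟨e, he, Or.inl h⟩, ⟨e, he, Or.inr h⟩]
    obtain ⟨b1, b2⟩ := D.nu_in (s.pos e he)
    have hin : a ∈ D.B (D.nu e.1 e.2.1) ∧ a' ∈ D.B (D.nu e.1 e.2.1) := by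
      rcases hor with ⟨h1, h2⟩ | ⟨h1, h2⟩ <;> rw [h1, h2] at b1 b2 ⊢
      exacts [⟨b1, b2⟩, ⟨b2, b1⟩]
    have hnu : D.nu e.1 e.2.1 ∈ D.sub t := D.dead_spec hdead hin.1
    have hc : s.c a' = s.c a ∧ s.c e.1 = s.c a := by
      have := s.same e he
      rcases hor with ⟨h1, h2⟩ | ⟨h1, h2⟩ <;> rw [h1, h2] at this <;> rw [h1]
      exacts [⟨this.symm, rfl⟩, ⟨this, this⟩]
    obtain ⟨tf, htf, hdep⟩ := s.top e he
    have hJt : e.2.2 ⊆ D.sub t := by
      have hbt : Below D.par D.root tf t := by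
        rcases D.below_total (D.mem_sub.1 (htf (s.nu_mem e he))) (D.mem_sub.1 hnu) with h | h
        · exact h
        · rw [(D.below_dep h).2 (le_antisymm (D.below_dep h).1 (hdep x t ht))]
          exact Relation.ReflTransGen.refl
      exact htf.trans (D.sub_mono (D.mem_sub.2 hbt))
    obtain ⟨r, hr, hrS⟩ := ih (D.mem_verts.2 ⟨_, hnu, hin.2⟩) hv' (hcv'.trans hc.1.symm)
    refine ⟨r, hr, fun h hh hne hab S hS => ?_⟩
    rw [← hrS h hh hne (by rwa [hc.1]) S hS]
    have hone : D.Anti t {h} := ⟨by simp [hh, hne], by simp⟩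
    have hsmall : ∀ S', D.phi t S' - D.phi h S' < D.eta → ∑ z ∈ e.2.2, D.inc S' z < D.eta := by
      intro S' hS'
      have h1 := D.sum_inc_rest hone S'
      rw [sum_singleton] at h1
      refine lt_of_le_of_lt (sum_le_sum_of_subset (t := D.rest t {h}) fun z hz => ?_) (by omega)
      refine mem_sdiff.2 ⟨hJt hz, fun hzh => hab ?_⟩
      rw [singleton_biUnion] at hzh
      exact D.between (s.one _) (hc.2 ▸ s.onJ e he z hz) ⟨a'', hv', hcv'⟩ (D.mem_sub.1 hzh)
        (D.mem_sub.1 hh)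
    by_contra hiff
    have hcross : (e.1 ∈ S ∧ e.2.1 ∉ S) ∨ (e.1 ∉ S ∧ e.2.1 ∈ S) := by
      rcases hor with ⟨h1, h2⟩ | ⟨h1, h2⟩ <;> rw [h1, h2] <;> tauto
    rcases hcross with ⟨h1, h2⟩ | ⟨h1, h2⟩
    · exact absurd (s.good e he S h1 h2) (not_le.2 (hsmall S hS))
    · exact absurd (s.good e he Sᶜ (mem_compl.2 h1) (by simpa using h2))
        (not_le.2 (hsmall Sᶜ (by rwa [D.phi_compl, D.phi_compl])))

/-- A nonconstant state can merge two classes. -/
theorem St.step [Nonempty V] (heta : 1 ≤ D.eta) (hD : treeConst D.b * D.eta ≤ D.k)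
    (s : St D) (u0 v0 : V) (h0 : s.c u0 ≠ s.c v0) :
    ∃ s' : St D, (univ.image s'.c).card < (univ.image s.c).card := by
  have hk : 0 < D.k := lt_of_lt_of_le (Nat.mul_pos (by simp [treeConst]) heta) hD
  -- a deepest top
  obtain ⟨⟨x, t⟩, hxt, hmax⟩ := exists_max_image
    ((univ : Finset (V × ι)).filter fun p => D.Top (D.Meets s.c p.1) p.2) (fun p => D.dep p.2) (by
      obtain ⟨z, hz⟩ := D.cover u0
      obtain ⟨a, ha, -⟩ := D.exists_top (D.Meets s.c (s.c u0)) (s := z) ⟨u0, hz, rfl⟩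
      exact ⟨(s.c u0, a), by simp [ha]⟩)
  replace hxt : D.Top (D.Meets s.c x) t := by simpa using hxt
  have hdeep : ∀ z a, D.Top (D.Meets s.c z) a → D.dep a ≤ D.dep t := fun z a ha =>
    hmax (z, a) (by simp [ha])
  have hxs : ∀ a, D.Meets s.c x a → a ∈ D.sub t := fun a ha =>
    D.mem_sub.2 (D.below_top (s.one x) hxt ha)
  set X := univ.filter fun u => s.c u = x with hX
  obtain ⟨ux, huxB, hux⟩ := hxt.1
  have hXu : X ≠ univ := fun h => by
    have a : u0 ∈ X := h ▸ mem_univ _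
    have c : v0 ∈ X := h ▸ mem_univ _
    simp only [hX, mem_filter] at a c
    exact h0 (a.2.trans c.2.symm)
  -- neighbouring classes all meet the bag at `t`
  let M := ((D.B t).image s.c).erase x
  have hM : ∀ u ∈ X, ∀ v ∈ Xᶜ, 0 < D.w u v → s.c v ∈ M := by
    intro u hu v hv huv
    simp only [hX, mem_filter, mem_compl, mem_univ, true_and] at hu hv
    obtain ⟨h1, h2⟩ := D.nu_in huv
    have hst := hxs _ ⟨u, h1, hu⟩
    obtain ⟨a, ha, hsa, hmid⟩ := D.exists_top (D.Meets s.c (s.c v)) (s := D.nu u v) ⟨v, h2, rfl⟩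
    have hta : Below D.par D.root t a := by
      rcases D.below_total (D.mem_sub.1 hst) hsa with h | h
      · exact h
      · rw [(D.below_dep h).2 (le_antisymm (D.below_dep h).1 (hdeep _ _ ha))]
        exact Relation.ReflTransGen.refl
    obtain ⟨z, hz, hzc⟩ := hmid t (D.mem_sub.1 hst) hta
    exact mem_erase.2 ⟨hv, mem_image.2 ⟨z, hz, hzc⟩⟩
  have hMcard : M.card + 1 ≤ D.b := by
    have h := card_erase_add_one (mem_image.2 ⟨ux, huxB, hux⟩ : x ∈ (D.B t).image s.c)
    have := s.load t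
    simp only [M]; omega
  let W : V → ℕ := fun y => ∑ e ∈ (univ : Finset (V × V)).filter
    (fun e => s.c e.1 = x ∧ s.c e.2 = y ∧ 0 < D.w e.1 e.2), D.w e.1 e.2
  obtain ⟨y, hyM, hy⟩ : ∃ y ∈ M, D.k ≤ D.b * W y := by
    have htot : ∑ u ∈ X, ∑ v ∈ Xᶜ, D.w u v ≤ ∑ y ∈ M, W y := by
      rw [← sum_product', ← sum_filter_ne_zero]
      refine le_trans ?_ (sum_biUnion ?_).le
      · refine sum_le_sum_of_subset fun e he => ?_
        simp only [mem_filter, mem_product] at he
        have hw := Nat.pos_of_ne_zero he.2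
        refine mem_biUnion.2 ⟨s.c e.2, hM _ he.1.1 _ he.1.2 hw, mem_filter.2 ⟨mem_univ _, ?_⟩⟩
        exact ⟨(mem_filter.1 he.1.1).2, rfl, hw⟩
      · intro a _ c _ hne
        simp only [Function.onFun, disjoint_left, mem_filter]
        rintro e ⟨-, -, h1, -⟩ ⟨-, -, h2, -⟩
        exact hne (h1.symm.trans h2)
    have hk' := (D.conn X ⟨ux, by simp [hX, hux]⟩ hXu).trans htot
    by_contra hcon
    push Not at hcon
    have hMne : M.Nonempty := by
      rw [nonempty_iff_ne_empty]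
      intro h
      rw [h, sum_empty] at hk'
      omega
    have := sum_lt_sum_of_nonempty hMne hcon
    rw [← mul_sum, sum_const, smul_eq_mul] at this
    have : M.card * D.k ≤ D.b * D.k := Nat.mul_le_mul_right _ (by omega)
    have : D.b * D.k ≤ D.b * ∑ y ∈ M, W y := Nat.mul_le_mul_left _ hk'
    omega
  obtain ⟨hyx, hyimg⟩ := mem_erase.1 hyM
  obtain ⟨uy, huyB, huy⟩ := mem_image.1 hyimg
  have hyt : D.Meets s.c y t := ⟨uy, huyB, huy⟩
  obtain ⟨⟨a, b⟩, hca, hcb, hwab, hgood⟩ := D.exists_good s.c x y t heta hD hxt.1 hyt hxs s.one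
    (fun v hv hcv => s.side D x t hxt v hv (by
      rcases hcv with h | h <;> rw [h]
      exacts [hxt.1, hyt])) hy
  set J := (D.sub t).filter (fun z => D.Meets s.c x z ∧ D.Meets s.c y z) with hJ
  simp only at hca hcb hwab hgood
  let m : V → V := fun z => if z = y then x else z
  have hmx : m x = x := by simp [m]
  have hlift : ∀ z a, D.Meets s.c z a → D.Meets (fun v => m (s.c v)) (m z) a :=
    fun z a ⟨v, h1, h2⟩ => ⟨v, h1, congrArg m h2⟩
  have htops : ∀ z a, D.Top (D.Meets (fun v => m (s.c v)) z) a →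
      ∃ z0, D.Top (D.Meets s.c z0) a ∧ m z0 = z := by
    intro z a ⟨⟨v, hv, hvz⟩, htop⟩
    exact ⟨s.c v, ⟨⟨v, hv, rfl⟩, htop.imp_right fun h h' => h (hvz ▸ hlift _ _ h')⟩, hvz⟩
  refine ⟨{ c := fun v => m (s.c v), L := insert (a, b, J) s.L, pos := ?_, good := ?_,
            nu_mem := ?_, same := ?_, top := ?_, onJ := ?_, one := ?_, load := ?_, joined := ?_ },
          ?_⟩
  · intro e he
    rcases mem_insert.1 he with rfl | he
    exacts [hwab, s.pos e he]
  · intro e he S h1 h2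
    rcases mem_insert.1 he with rfl | he
    exacts [hgood S h1 h2, s.good e he S h1 h2]
  · intro e he
    rcases mem_insert.1 he with rfl | he
    · obtain ⟨i1, i2⟩ := D.nu_in hwab
      exact mem_filter.2 ⟨hxs _ ⟨a, i1, hca⟩, ⟨a, i1, hca⟩, ⟨b, i2, hcb⟩⟩
    · exact s.nu_mem e he
  · intro e he
    rcases mem_insert.1 he with rfl | he
    · simp [m, hca, hcb]
    · exact congrArg m (s.same e he)
  · intro e he
    rcases mem_insert.1 he with rfl | he
    · exact ⟨t, filter_subset _ _, fun z c hc => by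
        obtain ⟨z0, h, -⟩ := htops z c hc
        exact hdeep z0 c h⟩
    · obtain ⟨tf, h1, h2⟩ := s.top e he
      exact ⟨tf, h1, fun z c hc => by
        obtain ⟨z0, h, -⟩ := htops z c hc
        exact h2 z0 c h⟩
  · intro e he z hz
    rcases mem_insert.1 he with rfl | he
    · show D.Meets (fun v => m (s.c v)) (m (s.c a)) z
      rw [hca]
      exact hlift _ _ (mem_filter.1 hz).2.1
    · exact hlift _ _ (s.onJ e he z hz)
  · intro z c1 c2 hc1 hc2
    obtain ⟨z1, h1, e1⟩ := htops z c1 hc1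
    obtain ⟨z2, h2, e2⟩ := htops z c2 hc2
    by_cases h12 : z1 = z2
    · subst h12; exact s.one z1 c1 c2 h1 h2
    have hmz : m z1 = m z2 := e1.trans e2.symm
    have key : ∀ p q, D.Top (D.Meets (fun v => m (s.c v)) z) p → D.Top (D.Meets s.c x) p →
        D.Top (D.Meets s.c y) q → z = x → p = q := by
      intro p q hp hpx hqy hzx
      have hpt := s.one x p t hpx hxt
      subst hpt
      exact s.one y p q ⟨hyt, hp.2.imp_right fun h h' => h (by
        have := hlift _ _ h'
        simpa [m, hzx] using this)⟩ hqy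
    simp only [m] at hmz
    split_ifs at hmz with g1 g2 g2
    · exact absurd (g1.trans g2.symm) h12
    · subst g1; subst hmz
      exact (key c2 c1 hc2 h2 h1 (by simpa [m, g2] using e2.symm)).symm
    · subst g2; subst hmz
      exact key c1 c2 hc1 h1 h2 (by simpa [m, g1] using e1.symm)
    · exact absurd hmz h12
  · intro z
    have himg : (D.B z).image (fun v => m (s.c v)) = ((D.B z).image s.c).image m := by
      rw [image_image]; rfl
    have hle : (((D.B z).image s.c).image m).card ≤ ((D.B z).image s.c).card := card_image_le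
    have hins : ((insert (a, b, J) s.L).filter fun e => z ∈ e.2.2).card ≤
        (s.L.filter fun e => z ∈ e.2.2).card + if z ∈ J then 1 else 0 := by
      rw [filter_insert]
      split_ifs with h
      · exact card_insert_le _ _
      · simp
    have := s.load z
    by_cases hzJ : z ∈ J
    · obtain ⟨-, ⟨z1, hz1, hz1c⟩, z2, hz2, hz2c⟩ := mem_filter.1 hzJ
      have hsub : ((D.B z).image s.c).image m ⊆ ((D.B z).image s.c).erase y := by
        intro q hq
        obtain ⟨q', hq', rfl⟩ := mem_image.1 hq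
        by_cases h : q' = y
        · simp only [m, if_pos h]
          exact mem_erase.2 ⟨hyx.symm, mem_image.2 ⟨z1, hz1, hz1c⟩⟩
        · simp only [m, if_neg h]
          exact mem_erase.2 ⟨h, hq'⟩
      have h2 := card_le_card hsub
      have h3 := card_erase_add_one (mem_image.2 ⟨z2, hz2, hz2c⟩ : y ∈ (D.B z).image s.c)
      rw [if_pos hzJ] at hins
      rw [himg]; omega
    · rw [if_neg hzJ] at hins
      rw [himg]; omega
  · intro u v huv
    set G' := SimpleGraph.fromRel fun p q => ∃ e ∈ insert (a, b, J) s.L, e.1 = p ∧ e.2.1 = q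
    have hle : (SimpleGraph.fromRel fun p q => ∃ e ∈ s.L, e.1 = p ∧ e.2.1 = q) ≤ G' := by
      intro p q h
      simp only [G', SimpleGraph.fromRel_adj] at h ⊢
      refine ⟨h.1, h.2.imp ?_ ?_⟩ <;> exact fun ⟨e, he, h⟩ => ⟨e, mem_insert_of_mem he, h⟩
    have hr' : ∀ p q, s.c p = s.c q → G'.Reachable p q := fun p q h => (s.joined p q h).mono hle
    have hab : G'.Reachable a b := by
      refine SimpleGraph.Adj.reachable ?_
      simp only [G', SimpleGraph.fromRel_adj]
      exact ⟨fun h => hyx (hcb.symm.trans (h ▸ hca)), Or.inl ⟨_, mem_insert_self _ _, rfl, rfl⟩⟩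
    simp only [m] at huv
    by_cases hu : s.c u = y <;> by_cases hv : s.c v = y <;>
      simp only [hu, hv, if_true, if_false] at huv
    · exact hr' _ _ (hu.trans hv.symm)
    · exact ((hr' u b (hu.trans hcb.symm)).trans hab.symm).trans (hr' a v (hca.trans huv))
    · exact ((hr' u a (huv.trans hca.symm)).trans hab).trans (hr' b v (hcb.trans hv.symm))
    · exact hr' _ _ huv
  · have himg : univ.image (fun v => m (s.c v)) ⊆ (univ.image s.c).erase y := by
      intro z hz
      obtain ⟨v, -, rfl⟩ := mem_image.1 hz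
      by_cases h : s.c v = y
      · simp only [m, if_pos h]
        exact mem_erase.2 ⟨hyx.symm, mem_image.2 ⟨ux, mem_univ _, hux⟩⟩
      · simp only [m, if_neg h]
        exact mem_erase.2 ⟨h, mem_image_of_mem _ (mem_univ _)⟩
    refine lt_of_le_of_lt (card_le_card himg) (card_erase_lt_of_mem ?_)
    exact mem_image.2 ⟨b, mem_univ _, hcb⟩

/-- A tree whose crossing edges are charged to the potential. -/
theorem Data.thin_tree [Nonempty V] (heta : 1 ≤ D.eta) (hD : treeConst D.b * D.eta ≤ D.k) :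
    ∃ T : SimpleGraph V, T.IsTree ∧ (∀ u v, T.Adj u v → 0 < D.w u v) ∧ ∀ S : Finset V,
      D.eta * ((S ×ˢ Sᶜ).filter fun p => T.Adj p.1 p.2).card ≤
        2 * D.b * ∑ u ∈ S, ∑ v ∈ Sᶜ, D.w u v := by
  have key : ∀ n, ∀ s : St D, (univ.image s.c).card ≤ n → ∃ s' : St D, ∀ u v, s'.c u = s'.c v := by
    intro n
    induction n with
    | zero =>
      intro s hs
      have : 0 < (univ.image s.c).card := card_pos.2 (univ_nonempty.image _)
      omega
    | succ n ih =>
      intro s hs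
      by_cases h : ∀ u v, s.c u = s.c v
      · exact ⟨s, h⟩
      · push Not at h
        obtain ⟨u, v, huv⟩ := h
        obtain ⟨s', hs'⟩ := s.step D heta hD u v huv
        exact ih s' (by omega)
  let s0 : St D :=
    { c := id, L := ∅
      pos := by simp, good := by simp, nu_mem := by simp, same := by simp, top := by simp
      onJ := by simp
      one := fun z a c ⟨⟨v, hv, hvz⟩, ha⟩ ⟨⟨v', hv', hvz'⟩, hc⟩ => by
        simp only [id_eq] at hvz hvz'
        subst hvz; subst hvz'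
        exact D.one_top v' a c hv (ha.imp_right fun h h' => h ⟨v', h', rfl⟩) hv'
          (hc.imp_right fun h h' => h ⟨v', h', rfl⟩)
      load := fun z => by simpa using D.size z
      joined := fun u v h => by simp only [id_eq] at h; subst h; rfl }
  obtain ⟨s, hs⟩ := key _ s0 le_rfl
  set G := SimpleGraph.fromRel fun x y => ∃ e ∈ s.L, e.1 = x ∧ e.2.1 = y with hG
  have hGc : G.Connected := ⟨fun u v => s.joined u v (hs u v)⟩
  obtain ⟨T, hTG, hT⟩ := hGc.exists_isTree_le
  have hadj : ∀ u v, T.Adj u v → ∃ e ∈ s.L, e.1 = u ∧ e.2.1 = v ∨ e.1 = v ∧ e.2.1 = u := by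
    intro u v h
    have := hTG h
    simp only [hG, SimpleGraph.fromRel_adj] at this
    rcases this.2 with ⟨e, he, h⟩ | ⟨e, he, h⟩
    exacts [⟨e, he, Or.inl h⟩, ⟨e, he, Or.inr h⟩]
  refine ⟨T, hT, fun u v h => ?_, fun S => ?_⟩
  · obtain ⟨e, he, h' | h'⟩ := hadj u v h
    · have := s.pos e he; rwa [h'.1, h'.2] at this
    · have := s.pos e he; rwa [h'.1, h'.2, D.symm] at this
  let F := s.L.filter fun e => ¬ (e.1 ∈ S ↔ e.2.1 ∈ S)
  have hcard : ((S ×ˢ Sᶜ).filter fun p => T.Adj p.1 p.2).card ≤ F.card := by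
    let o : V × V × Finset ι → V × V := fun e => if e.1 ∈ S then (e.1, e.2.1) else (e.2.1, e.1)
    refine le_trans (card_le_card (t := F.image o) ?_) card_image_le
    intro p hp
    simp only [mem_filter, mem_product, mem_compl] at hp
    obtain ⟨⟨h1, h2⟩, h3⟩ := hp
    obtain ⟨e, he, h' | h'⟩ := hadj _ _ h3
    · refine mem_image.2 ⟨e, mem_filter.2 ⟨he, ?_⟩, ?_⟩
      · rw [h'.1, h'.2]; tauto
      · simp [o, h'.1, h'.2, h1]
    · refine mem_image.2 ⟨e, mem_filter.2 ⟨he, ?_⟩, ?_⟩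
      · rw [h'.1, h'.2]; tauto
      · simp [o, h'.1, h'.2, h2]
  have hcharge : ∀ e ∈ F, D.eta ≤ ∑ z ∈ e.2.2, D.inc S z := by
    intro e he
    obtain ⟨he, hne⟩ := mem_filter.1 he
    by_cases h : e.1 ∈ S
    · exact s.good e he S h fun h' => hne ⟨fun _ => h', fun _ => h⟩
    · have h' : e.2.1 ∈ S := by tauto
      have := s.good e he Sᶜ (mem_compl.2 h) (by simpa using h')
      simpa only [D.inc_compl] using this
  calc D.eta * ((S ×ˢ Sᶜ).filter fun p => T.Adj p.1 p.2).card
      ≤ D.eta * F.card := Nat.mul_le_mul_left _ hcard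
    _ = ∑ _e ∈ F, D.eta := by rw [sum_const, smul_eq_mul, mul_comm]
    _ ≤ ∑ e ∈ F, ∑ z ∈ e.2.2, D.inc S z := sum_le_sum hcharge
    _ = ∑ z, (F.filter fun e => z ∈ e.2.2).card * D.inc S z := by
        rw [sum_comm' (t' := univ) (s' := fun z => F.filter fun e => z ∈ e.2.2)]
        · exact sum_congr rfl fun z _ => by rw [sum_const, smul_eq_mul]
        · simp
    _ ≤ ∑ z, D.b * D.inc S z := sum_le_sum fun z _ => Nat.mul_le_mul_right _
        ((card_le_card (filter_subset_filter _ (filter_subset _ _))).trans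
          ((Nat.le_add_right _ _).trans (s.load z)))
    _ = D.b * D.phi D.root S := by rw [← mul_sum, ← D.sum_inc, D.sub_root]
    _ ≤ D.b * (2 * D.dlt D.root S) :=
        Nat.mul_le_mul_left _ ((Nat.sub_le _ _).trans (Nat.sub_le _ _))
    _ = 2 * D.b * ∑ u ∈ S, ∑ v ∈ Sᶜ, D.w u v := by
        simp only [Data.dlt, Data.cutN, D.sub_root, Data.wN, mem_univ, if_true]
        ring

end Vale.P061.TW
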