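import Vale.Agent.P061.Treewidth.Pot

/-!
# P061: partitions of a region without a cheap split
-/

namespace Vale.P061.TW

open Finset
open scoped Classical

variable {V ι : Type} [Fintype V] [Fintype ι] (D : Data V ι)

/-- Ordered weight between different parts. -/
noncomputable def Data.inter (N : Finset ι) (p : V → Fin (Fintype.card V)) : ℕ :=
  ∑ u ∈ D.verts N, ∑ v ∈ D.verts N, if p u = p v then 0 else D.wN N u v

/-- Facts about a partition of a region. -/
structure Part (N : Finset ι) (β θ : ℕ) where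
  p : V → Fin (Fintype.card V)
  mono : ∀ S : Finset V, D.cutN N S < θ → ∀ a ∈ D.verts N, ∀ c ∈ D.verts N, p a = p c →
    (a ∈ S ↔ c ∈ S)
  inter_le : D.inter N p ≤ 4 * θ * β
  labels : ((D.verts N).image p).card ≤ 2 * β

theorem Data.exists_part [Nonempty V] (N : Finset ι) (Bd : Finset V) (β θ : ℕ)
    (hβ : Bd.card ≤ β) (hθ : 4 * θ ≤ D.k) (hθ0 : 1 ≤ θ) (hBd : Bd.Nonempty)
    (hBN : Bd ⊆ D.verts N)
    (hint : ∀ v ∈ D.verts N, v ∉ Bd → ∀ s, v ∈ D.B s → s ∈ N) :
    Nonempty (Part D N β θ) := by
  let U := D.verts N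
  let Ψ : (V → Fin (Fintype.card V)) → ℤ := fun p =>
    2 * (θ : ℤ) * (U.image p).card - D.inter N p
  have : NeZero (Fintype.card V) := ⟨Fintype.card_ne_zero⟩
  obtain ⟨p, -, hp⟩ := exists_max_image (univ : Finset (V → Fin (Fintype.card V))) Ψ univ_nonempty
  have hmono : ∀ S : Finset V, D.cutN N S < θ → ∀ a ∈ U, ∀ c ∈ U, p a = p c → a ∈ S → c ∈ S := by
    intro S hS a ha c hc hac haS
    by_contra hcS
    obtain ⟨x, hx⟩ : ∃ x, x ∉ U.image p := by
      by_contra hall
      push Not at hall
      have h1 : U.image p = univ := eq_univ_iff_forall.2 hall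
      have h2 : Fintype.card V ≤ (U.image p).card := by simp [h1]
      have h3 : Set.InjOn p (U : Set V) :=
        card_image_iff.1 (le_antisymm card_image_le (le_trans (card_le_univ U) h2))
      exact hcS (h3 ha hc hac ▸ haS)
    let q : V → Fin (Fintype.card V) := fun v => if p v = p a ∧ v ∈ S then x else p v
    have himg : U.image q = insert x (U.image p) := by
      ext z
      simp only [mem_insert, mem_image]
      constructor
      · rintro ⟨v, hv, rfl⟩
        by_cases h : p v = p a ∧ v ∈ S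
        · left; simp [q, h]
        · right; exact ⟨v, hv, by simp only [q, if_neg h]⟩
      · rintro (rfl | ⟨v, hv, rfl⟩)
        · exact ⟨a, ha, by simp [q, haS]⟩
        · by_cases h : p v = p a ∧ v ∈ S
          · exact ⟨c, hc, by simp [q, hcS, ← hac, h.1]⟩
          · exact ⟨v, hv, by simp only [q, if_neg h]⟩
    have hbound : D.inter N q ≤ D.inter N p + 2 * D.cutN N S := by
      have hsplit : D.inter N q ≤ D.inter N p +
          ((∑ u ∈ U, ∑ v ∈ U, if u ∈ S ∧ v ∉ S then D.wN N u v else 0) +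
            ∑ u ∈ U, ∑ v ∈ U, if u ∉ S ∧ v ∈ S then D.wN N u v else 0) := by
        simp only [Data.inter, U, ← sum_add_distrib]
        refine sum_le_sum fun u hu => sum_le_sum fun v hv => ?_
        have hux : p u ≠ x := fun h => hx (h ▸ mem_image_of_mem p hu)
        have hvx : p v ≠ x := fun h => hx (h ▸ mem_image_of_mem p hv)
        by_cases h : p u = p v
        · by_cases hs : u ∈ S <;> by_cases ht : v ∈ S <;> by_cases hq : p v = p a <;>
            simp [q, h, hs, ht, hq] <;> split_ifs <;> omega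
        · simp only [if_neg h]
          split_ifs <;> omega
      have h1 : (∑ u ∈ U, ∑ v ∈ U, if u ∈ S ∧ v ∉ S then D.wN N u v else 0) ≤ D.cutN N S := by
        rw [D.cutN_eq]
        exact le_trans (sum_le_sum fun u _ => sum_le_univ_sum_of_nonneg fun v => Nat.zero_le _)
          (sum_le_univ_sum_of_nonneg fun u => Nat.zero_le _)
      have h2 : (∑ u ∈ U, ∑ v ∈ U, if u ∉ S ∧ v ∈ S then D.wN N u v else 0) ≤ D.cutN N S := by
        rw [Finset.sum_comm]
        refine le_trans (le_of_eq ?_) h1
        exact sum_congr rfl fun u _ => sum_congr rfl fun v _ => by simp [and_comm, D.wN_comm N v u]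
      omega
    have h1 := hp q (mem_univ _)
    simp only [Ψ, himg, card_insert_of_notMem hx, Nat.cast_add, Nat.cast_one] at h1
    have h2 : (D.inter N q : ℤ) ≤ D.inter N p + 2 * D.cutN N S := by exact_mod_cast hbound
    have h3 : (D.cutN N S : ℤ) < θ := by exact_mod_cast hS
    linarith
  obtain ⟨a0, ha0⟩ := hBd
  have h1 := hp (fun _ => 0) (mem_univ _)
  have hz : D.inter N (fun _ => 0) = 0 := by simp [Data.inter]
  simp only [Ψ, hz, U, image_const ⟨a0, hBN ha0⟩, card_singleton] at h1
  set E := (D.verts N).image p with hE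
  let bd := Bd.image p
  have hint' : ∀ z ∈ E \ bd, D.k ≤ ∑ u ∈ (D.verts N).filter (fun u => p u = z),
      ∑ v ∈ D.verts N, if p u = p v then 0 else D.wN N u v := by
    intro z hz
    rw [mem_sdiff] at hz
    obtain ⟨hzE, hzbd⟩ := hz
    set C := (D.verts N).filter fun u => p u = z with hC
    have hCne : C.Nonempty := by
      obtain ⟨u, hu, rfl⟩ := mem_image.1 hzE
      exact ⟨u, mem_filter.2 ⟨hu, rfl⟩⟩
    have hCu : C ≠ univ := fun h => by
      have : a0 ∈ C := h ▸ mem_univ _
      exact hzbd (mem_image.2 ⟨a0, ha0, (mem_filter.1 this).2⟩)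
    refine (D.conn C hCne hCu).trans (sum_le_sum fun u hu => ?_)
    obtain ⟨huU, hpu⟩ := mem_filter.1 hu
    have hub : u ∉ Bd := fun h => hzbd (mem_image.2 ⟨u, h, hpu⟩)
    calc ∑ v ∈ Cᶜ, D.w u v
        ≤ ∑ v ∈ Cᶜ, if v ∈ D.verts N then (if p u = p v then 0 else D.wN N u v) else 0 :=
          sum_le_sum fun v hv => by
            rcases Nat.eq_zero_or_pos (D.w u v) with h0 | h0
            · omega
            obtain ⟨h1, h2⟩ := D.nu_in h0
            have hs := hint u huU hub _ h1
            have hvU : v ∈ D.verts N := D.mem_verts.2 ⟨_, hs, h2⟩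
            have hne : p u ≠ p v := fun h =>
              mem_compl.1 hv (mem_filter.2 ⟨hvU, h ▸ hpu⟩)
            rw [if_pos hvU, if_neg hne]
            simp [Data.wN, hs]
      _ ≤ _ := by
          rw [← sum_filter]
          exact sum_le_sum_of_subset fun v hv => (mem_filter.1 hv).2
  have h2 : (E \ bd).card * D.k ≤ D.inter N p := by
    calc (E \ bd).card * D.k = ∑ _z ∈ E \ bd, D.k := by simp
      _ ≤ ∑ z ∈ E \ bd, ∑ u ∈ (D.verts N).filter (fun u => p u = z),
          ∑ v ∈ D.verts N, if p u = p v then 0 else D.wN N u v := sum_le_sum hint'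
      _ ≤ ∑ z ∈ E, ∑ u ∈ (D.verts N).filter (fun u => p u = z),
          ∑ v ∈ D.verts N, if p u = p v then 0 else D.wN N u v :=
          sum_le_sum_of_subset sdiff_subset
      _ = _ := sum_fiberwise_of_maps_to (fun u hu => mem_image_of_mem p hu) _
  have h3 : E.card ≤ β + (E \ bd).card := by
    have := card_le_card_sdiff_add_card (s := E) (t := bd)
    have : bd.card ≤ β := card_image_le.trans hβ
    omega
  obtain ⟨n, hn⟩ : ∃ n, n = (E \ bd).card := ⟨_, rfl⟩
  rw [← hn] at h2 h3
  have h4 : 2 * θ * n * 2 ≤ D.inter N p := by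
    have := Nat.mul_le_mul_left n hθ
    linarith
  have h1' : (D.inter N p : ℤ) + 2 * θ ≤ 2 * θ * E.card := by simp at h1; linarith
  have h1'' : D.inter N p + 2 * θ ≤ 2 * θ * E.card := by exact_mod_cast h1'
  have h5 := Nat.mul_le_mul_left (2 * θ) h3
  have hI : D.inter N p ≤ 4 * θ * β := by
    rw [Nat.mul_add] at h5
    linarith
  refine ⟨⟨p, fun S hS a ha c hc hac => ⟨hmono S hS a ha c hc hac, hmono S hS c hc a ha hac.symm⟩,
    hI, ?_⟩⟩
  have hnβ : n ≤ β := by
    refine Nat.le_of_mul_le_mul_right ?_ (show 0 < 4 * θ by omega)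
    linarith
  show E.card ≤ 2 * β
  omega

end Vale.P061.TW
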