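import Vale.Agent.P061.Treewidth.Tree

/-!
# P061: cuts of subtrees and the potential

`dlt t S` is the weight of `S` inside the subtree at `t`, `ext t S` the least such weight among
sets with the same trace on the bag of `t`, and `phi` the truncated potential built from them.
-/

namespace Vale.P061.TW

open Finset
open scoped Classical

variable {V ι : Type} [Fintype V] [Fintype ι] (D : Data V ι)

/-- Weights of the edges assigned to the node set `N`. -/
noncomputable def Data.wN (N : Finset ι) (u v : V) : ℕ := if D.nu u v ∈ N then D.w u v else 0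

/-- Cut inside a node set. -/
noncomputable def Data.cutN (N : Finset ι) (S : Finset V) : ℕ :=
  ∑ u ∈ S, ∑ v ∈ Sᶜ, D.wN N u v

theorem Data.wN_comm (N : Finset ι) (u v : V) : D.wN N u v = D.wN N v u := by
  simp [Data.wN, D.nu_comm u v, D.symm u v]

theorem Data.cutN_union {N M : Finset ι} (h : Disjoint N M) (S : Finset V) :
    D.cutN (N ∪ M) S = D.cutN N S + D.cutN M S := by
  simp only [Data.cutN, ← sum_add_distrib]
  refine sum_congr rfl fun u _ => sum_congr rfl fun v _ => ?_
  simp only [Data.wN, mem_union]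
  by_cases a : D.nu u v ∈ N
  · simp [a, disjoint_left.1 h a]
  · simp [a]

theorem Data.cutN_mono {N M : Finset ι} (h : N ⊆ M) (S : Finset V) : D.cutN N S ≤ D.cutN M S := by
  rw [← union_sdiff_of_subset h, D.cutN_union disjoint_sdiff]
  exact Nat.le_add_right _ _

theorem Data.cutN_biUnion (H : Finset ι) (g : ι → Finset ι)
    (h : ∀ a ∈ H, ∀ c ∈ H, a ≠ c → Disjoint (g a) (g c)) (S : Finset V) :
    D.cutN (H.biUnion g) S = ∑ a ∈ H, D.cutN (g a) S := by
  induction H using Finset.induction_on with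
  | empty => simp [Data.cutN, Data.wN]
  | @insert a H ha ih =>
    rw [biUnion_insert, D.cutN_union, sum_insert ha,
      ih fun x hx y hy => h x (mem_insert_of_mem hx) y (mem_insert_of_mem hy)]
    rw [disjoint_biUnion_right]
    exact fun c hc => h a (mem_insert_self _ _) c (mem_insert_of_mem hc)
      (ne_of_mem_of_not_mem hc ha).symm

theorem Data.cutN_compl (N : Finset ι) (S : Finset V) : D.cutN N Sᶜ = D.cutN N S := by
  simp only [Data.cutN, compl_compl]
  rw [Finset.sum_comm]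
  exact sum_congr rfl fun u _ => sum_congr rfl fun v _ => D.wN_comm N v u

theorem Data.cutN_eq (N : Finset ι) (S : Finset V) :
    D.cutN N S = ∑ u, ∑ v, if u ∈ S ∧ v ∉ S then D.wN N u v else 0 := by
  simp only [Data.cutN, ite_and]
  refine Eq.trans ?_ (sum_congr rfl fun u _ => (sum_ite_irrel _ _ _ _).symm)
  simp only [sum_const_zero, ← sum_filter]
  exact sum_congr (by ext; simp) fun u _ => sum_congr (by ext; simp) fun v _ => rfl

theorem Data.cutN_congr {N : Finset ι} {S S' : Finset V}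
    (h : ∀ v ∈ D.verts N, v ∈ S ↔ v ∈ S') : D.cutN N S = D.cutN N S' := by
  rw [D.cutN_eq, D.cutN_eq]
  refine sum_congr rfl fun u _ => sum_congr rfl fun v _ => ?_
  by_cases hN : D.nu u v ∈ N
  · rcases Nat.eq_zero_or_pos (D.w u v) with h0 | h0
    · simp [Data.wN, h0]
    · obtain ⟨h1, h2⟩ := D.nu_in h0
      simp only [h u (D.mem_verts.2 ⟨_, hN, h1⟩), h v (D.mem_verts.2 ⟨_, hN, h2⟩)]
  · simp [Data.wN, hN]

/-- Cut inside the subtree at `t`. -/
noncomputable def Data.dlt (t : ι) (S : Finset V) : ℕ := D.cutN (D.sub t) S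

theorem Data.exists_ext (t : ι) (S : Finset V) : ∃ n, ∃ S' : Finset V,
    (∀ v ∈ D.B t, v ∈ S' ↔ v ∈ S) ∧ D.dlt t S' = n :=
  ⟨_, S, fun _ _ => Iff.rfl, rfl⟩

/-- Least subtree cut with the same trace on the bag of `t`. -/
noncomputable def Data.ext (t : ι) (S : Finset V) : ℕ := Nat.find (D.exists_ext t S)

theorem Data.ext_le {t : ι} {S S' : Finset V} (h : ∀ v ∈ D.B t, v ∈ S' ↔ v ∈ S) :
    D.ext t S ≤ D.dlt t S' :=
  Nat.find_min' _ ⟨S', h, rfl⟩

theorem Data.ext_spec (t : ι) (S : Finset V) :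
    ∃ S' : Finset V, (∀ v ∈ D.B t, v ∈ S' ↔ v ∈ S) ∧ D.dlt t S' = D.ext t S :=
  Nat.find_spec (D.exists_ext t S)

theorem Data.ext_congr {t : ι} {S S' : Finset V} (h : ∀ v ∈ D.B t, v ∈ S' ↔ v ∈ S) :
    D.ext t S' = D.ext t S := by
  obtain ⟨A, hA, eA⟩ := D.ext_spec t S
  obtain ⟨A', hA', eA'⟩ := D.ext_spec t S'
  refine le_antisymm ?_ ?_
  · rw [← eA]; exact D.ext_le fun v hv => (hA v hv).trans (h v hv).symm
  · rw [← eA']; exact D.ext_le fun v hv => (hA' v hv).trans (h v hv)

theorem Data.ext_compl (t : ι) (S : Finset V) : D.ext t Sᶜ = D.ext t S := by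
  obtain ⟨A, hA, eA⟩ := D.ext_spec t S
  obtain ⟨A', hA', eA'⟩ := D.ext_spec t Sᶜ
  refine le_antisymm ?_ ?_
  · rw [← eA]
    refine le_of_le_of_eq (D.ext_le (S' := Aᶜ) fun v hv => by simp [hA v hv]) ?_
    exact D.cutN_compl _ _
  · rw [← eA']
    refine le_of_le_of_eq (D.ext_le (S' := A'ᶜ) fun v hv => by simp [hA' v hv]) ?_
    exact D.cutN_compl _ _

/-- Cut plus saving. -/
noncomputable def Data.tot (t : ι) (S : Finset V) : ℕ := 2 * D.dlt t S - D.ext t S

/-- The potential. -/
noncomputable def Data.phi (t : ι) (S : Finset V) : ℕ := D.tot t S - D.eta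

/-- Increase of the potential at a node. -/
noncomputable def Data.inc (S : Finset V) (t : ι) : ℕ := D.phi t S - ∑ x ∈ D.ch t, D.phi x S

theorem Data.phi_compl (t : ι) (S : Finset V) : D.phi t Sᶜ = D.phi t S := by
  simp only [Data.phi, Data.tot, D.ext_compl, Data.dlt, D.cutN_compl]

theorem Data.inc_compl (t : ι) (S : Finset V) : D.inc Sᶜ t = D.inc S t := by
  simp only [Data.inc, D.phi_compl]

/-- Pairwise incomparable nodes have disjoint subtrees. -/
theorem Data.sub_disjoint {a c : ι} (h1 : a ∉ D.sub c) (h2 : c ∉ D.sub a) :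
    Disjoint (D.sub a) (D.sub c) := by
  rw [disjoint_left]
  intro s hs hs'
  rcases D.below_total (D.mem_sub.1 hs) (D.mem_sub.1 hs') with h | h
  · exact h1 (D.mem_sub.2 h)
  · exact h2 (D.mem_sub.2 h)

/-- An antichain strictly inside the subtree at `t`. -/
def Data.Anti (t : ι) (H : Finset ι) : Prop :=
  (∀ h ∈ H, h ∈ D.sub t ∧ h ≠ t) ∧ ∀ a ∈ H, ∀ c ∈ H, a ≠ c → a ∉ D.sub c

/-- The subtree at `t` without the subtrees of `H`. -/
noncomputable def Data.rest (t : ι) (H : Finset ι) : Finset ι := D.sub t \ H.biUnion D.sub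

theorem Data.dlt_split {t : ι} {H : Finset ι} (hH : D.Anti t H) (S : Finset V) :
    D.dlt t S = D.cutN (D.rest t H) S + ∑ h ∈ H, D.dlt h S := by
  have e : D.sub t = D.rest t H ∪ H.biUnion D.sub := by
    rw [Data.rest, sdiff_union_of_subset]
    intro s hs
    obtain ⟨h, hh, hs⟩ := mem_biUnion.1 hs
    exact D.sub_mono (hH.1 h hh).1 hs
  unfold Data.dlt
  conv_lhs => rw [e]
  rw [D.cutN_union (N := D.rest t H) (M := H.biUnion D.sub) (by exact sdiff_disjoint),
    D.cutN_biUnion H D.sub fun a ha c hc hne =>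
    D.sub_disjoint (hH.2 a ha c hc hne) (hH.2 c hc a ha hne.symm)]

/-- Optimal extensions inside the subtrees of an antichain, installed at once. -/
theorem Data.exists_opt {t : ι} {H : Finset ι} (hH : D.Anti t H) (S : Finset V) :
    ∃ S' : Finset V, (∀ v, (∀ h ∈ H, v ∉ D.dead h) → (v ∈ S' ↔ v ∈ S)) ∧
      (∀ h ∈ H, D.dlt h S' = D.ext h S) ∧ D.cutN (D.rest t H) S' = D.cutN (D.rest t H) S ∧
      ∀ v ∈ D.B t, v ∈ S' ↔ v ∈ S := by
  choose A hA eA using fun h => D.ext_spec h S
  let S' := univ.filter fun v =>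
    if hv : ∃ h ∈ H, v ∈ D.dead h then v ∈ A hv.choose else v ∈ S
  have hout : ∀ v, (∀ h ∈ H, v ∉ D.dead h) → (v ∈ S' ↔ v ∈ S) := fun v hv => by
    have : ¬ ∃ h ∈ H, v ∈ D.dead h := fun ⟨h, a, c⟩ => hv h a c
    simp [S', dif_neg this]
  refine ⟨S', hout, fun h hh => ?_, ?_, ?_⟩
  · rw [← eA h]
    refine D.cutN_congr fun v hv => ?_
    obtain ⟨s, hs, hvs⟩ := D.mem_verts.1 hv
    by_cases hvh : v ∈ D.B h
    · rw [hA h v hvh]
      refine hout v fun h' hh' hd => ?_
      by_cases e : h' = h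
      · subst e
        simp [Data.dead, hvh] at hd
      · exact hH.2 h hh h' hh' (Ne.symm e) (D.dead_spec hd hvh)
    · have hd := D.mem_dead hs hvs hvh
      have hex : ∃ h ∈ H, v ∈ D.dead h := ⟨h, hh, hd⟩
      have e : hex.choose = h := by
        obtain ⟨h1, h2⟩ := hex.choose_spec
        by_contra e
        exact disjoint_left.1 (D.sub_disjoint (hH.2 _ h1 h hh e) (hH.2 h hh _ h1 (Ne.symm e)))
          (D.dead_spec h2 hvs) hs
      simp [S', dif_pos hex, e]
  · refine D.cutN_congr fun v hv => hout v fun h hh hd => ?_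
    obtain ⟨s, hs, hvs⟩ := D.mem_verts.1 hv
    exact (mem_sdiff.1 hs).2 (mem_biUnion.2 ⟨h, hh, D.dead_spec hd hvs⟩)
  · refine fun v hv => hout v fun h hh hd => ?_
    have := D.mem_sub.1 (D.dead_spec hd hv)
    exact (hH.1 h hh).2 (D.below_antisymm (D.mem_sub.1 (hH.1 h hh).1) this)

theorem Data.ext_le_dlt (t : ι) (S : Finset V) : D.ext t S ≤ D.dlt t S :=
  D.ext_le fun _ _ => Iff.rfl

theorem Data.ext_split {t : ι} {H : Finset ι} (hH : D.Anti t H) (S : Finset V) :
    D.ext t S ≤ D.cutN (D.rest t H) S + ∑ h ∈ H, D.ext h S := by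
  obtain ⟨S', -, h2, h3, h4⟩ := D.exists_opt hH S
  refine (D.ext_le h4).trans (le_of_eq ?_)
  rw [D.dlt_split hH, h3, sum_congr rfl h2]

theorem Data.tot_split {t : ι} {H : Finset ι} (hH : D.Anti t H) (S : Finset V) :
    D.cutN (D.rest t H) S + ∑ h ∈ H, D.tot h S ≤ D.tot t S := by
  have a := D.dlt_split hH S
  have c := D.ext_split hH S
  have d : ∑ h ∈ H, D.tot h S + ∑ h ∈ H, D.ext h S = 2 * ∑ h ∈ H, D.dlt h S := by
    rw [mul_sum, ← sum_add_distrib]
    exact sum_congr rfl fun h _ => by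
      have := D.ext_le_dlt h S
      simp only [Data.tot]; omega
  have := D.ext_le_dlt t S
  simp only [Data.tot] at d ⊢
  omega

theorem Data.anti_ch (t : ι) : D.Anti t (D.ch t) := by
  constructor
  · intro h hh
    simp only [Data.ch, mem_filter, mem_univ, true_and] at hh
    refine ⟨D.mem_sub.2 (Relation.ReflTransGen.single hh), fun e => ?_⟩
    have := D.dep_par h hh.1
    rw [hh.2, e] at this
    omega
  · intro a ha c hc hne hac
    simp only [Data.ch, mem_filter, mem_univ, true_and] at ha hc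
    obtain ⟨-, h⟩ := D.par_mem hac hne
    rw [ha.2] at h
    have := (D.below_dep (D.mem_sub.1 h)).1
    have := D.dep_par c hc.1
    rw [hc.2] at this
    omega

theorem Data.sum_phi_ch (t : ι) (S : Finset V) : ∑ x ∈ D.ch t, D.phi x S ≤ D.phi t S := by
  have h := D.tot_split (D.anti_ch t) S
  by_cases hc : ∃ x ∈ D.ch t, D.eta ≤ D.tot x S
  · obtain ⟨x, hx, hxe⟩ := hc
    rw [← add_sum_erase _ _ hx]
    rw [← add_sum_erase _ _ hx] at h
    have : ∑ y ∈ (D.ch t).erase x, D.phi y S ≤ ∑ y ∈ (D.ch t).erase x, D.tot y S :=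
      sum_le_sum fun y _ => Nat.sub_le _ _
    simp only [Data.phi] at this ⊢
    omega
  · push Not at hc
    rw [sum_eq_zero fun x hx => show D.phi x S = 0 from Nat.sub_eq_zero_of_le (hc x hx).le]
    exact Nat.zero_le _

theorem Data.sum_inc (t : ι) (S : Finset V) : ∑ s ∈ D.sub t, D.inc S s = D.phi t S := by
  suffices ∀ n, ∀ t, (D.sub t).card ≤ n → ∑ s ∈ D.sub t, D.inc S s = D.phi t S from this _ t le_rfl
  intro n
  induction n with
  | zero =>
    intro t ht
    have := card_pos.2 ⟨t, D.mem_sub_self t⟩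
    omega
  | succ n ih =>
    intro t ht
    have hA := D.anti_ch t
    have e : D.sub t = insert t ((D.ch t).biUnion D.sub) := by
      ext s
      simp only [mem_insert, mem_biUnion]
      constructor
      · intro hs
        rcases D.below_cases (D.mem_sub.1 hs) with h | ⟨x, hx, h⟩
        exacts [Or.inl h, Or.inr ⟨x, hx, D.mem_sub.2 h⟩]
      · rintro (rfl | ⟨x, hx, h⟩)
        exacts [D.mem_sub_self _, D.sub_mono (hA.1 x hx).1 h]
    have htn : t ∉ (D.ch t).biUnion D.sub := by
      simp only [mem_biUnion, not_exists, not_and]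
      intro x hx h
      exact (hA.1 x hx).2 (D.below_antisymm (D.mem_sub.1 (hA.1 x hx).1) (D.mem_sub.1 h))
    rw [e, sum_insert htn, sum_biUnion fun a ha c hc hne =>
      D.sub_disjoint (hA.2 a ha c hc hne) (hA.2 c hc a ha hne.symm)]
    rw [sum_congr rfl fun x hx => ih x ?_]
    · have := D.sum_phi_ch t S
      simp only [Data.inc]; omega
    · have hss : D.sub x ⊂ D.sub t := by
        refine Finset.ssubset_iff_subset_ne.2 ⟨D.sub_mono (hA.1 x hx).1, fun h => ?_⟩
        exact htn (mem_biUnion.2 ⟨x, hx, h ▸ D.mem_sub_self t⟩)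
      have := card_lt_card hss
      omega

theorem Data.sum_inc_rest {t : ι} {H : Finset ι} (hH : D.Anti t H) (S : Finset V) :
    ∑ s ∈ D.rest t H, D.inc S s + ∑ h ∈ H, D.phi h S = D.phi t S := by
  have hsub : H.biUnion D.sub ⊆ D.sub t := fun s hs => by
    obtain ⟨h, hh, hs⟩ := mem_biUnion.1 hs
    exact D.sub_mono (hH.1 h hh).1 hs
  rw [← D.sum_inc t S, ← sum_sdiff hsub, Data.rest,
    sum_biUnion fun a ha c hc hne =>
      D.sub_disjoint (hH.2 a ha c hc hne) (hH.2 c hc a ha hne.symm)]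
  simp only [D.sum_inc]

end Vale.P061.TW
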