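import Vale.Agent.P061.Treewidth.Main

/-!
# P061: standard tree decompositions give rooted ones
-/

namespace Vale.P061.TW

open Finset SimpleGraph
open scoped Classical

/-- Thinness constant for bags of size `b`. -/
def thinConst (b : ℕ) : ℕ := 2 * b * treeConst b

theorem thin_tree_treewidth {V ι : Type} [Fintype V] [Nonempty V] [Fintype ι] (b k : ℕ)
    (w : V → V → ℕ) (Tι : SimpleGraph ι) (B : ι → Finset V) (hT : Tι.IsTree) (hk : 1 ≤ k)
    (hsymm : ∀ u v, w u v = w v u)
    (hconn : ∀ S : Finset V, S.Nonempty → S ≠ univ → k ≤ ∑ u ∈ S, ∑ v ∈ Sᶜ, w u v)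
    (hcover : ∀ v, ∃ s, v ∈ B s) (hedge : ∀ u v, 0 < w u v → ∃ s, u ∈ B s ∧ v ∈ B s)
    (hbags : ∀ v, (Tι.induce {s | v ∈ B s}).Preconnected) (hsize : ∀ s, (B s).card ≤ b) :
    ∃ T : SimpleGraph V, T.IsTree ∧ (∀ u v, T.Adj u v → 0 < w u v) ∧ ∀ S : Finset V,
      k * ((S ×ˢ Sᶜ).filter fun p => T.Adj p.1 p.2).card ≤
        thinConst b * ∑ u ∈ S, ∑ v ∈ Sᶜ, w u v := by
  obtain ⟨r⟩ := hT.connected.nonempty
  choose P hP using fun x => (hT.existsUnique_path x r).exists
  have huniq : ∀ x (q : Tι.Walk x r), q.IsPath → q = P x := fun x q hq =>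
    (hT.existsUnique_path x r).unique hq (hP x)
  let par : ι → ι := fun x => (P x).snd
  have hdep : ∀ x, x ≠ r → (P (par x)).length < (P x).length := by
    intro x hx
    have hn : ¬ (P x).Nil := fun h => hx h.eq
    have := huniq _ _ (hP x).tail
    rw [← this]
    have := Walk.length_tail_add_one hn
    omega
  -- adjacent nodes are parent and child
  have hadj : ∀ u v, Tι.Adj u v → (u ≠ r ∧ par u = v) ∨ (v ≠ r ∧ par v = u) := by
    intro u v h
    by_cases hu : u ∈ (P v).support
    · refine Or.inr ⟨fun e => ?_, ?_⟩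
      · subst e
        have := huniq v Walk.nil Walk.IsPath.nil
        rw [← this, Walk.support_nil, List.mem_singleton] at hu
        exact h.ne hu
      · have h1 : (P v).takeUntil u hu = Walk.cons h.symm Walk.nil :=
          (hT.existsUnique_path v u).unique ((hP v).takeUntil hu)
            ((Walk.cons_isPath_iff _ _).2 ⟨Walk.IsPath.nil, by simpa using h.ne.symm⟩)
        have h2 := (P v).take_spec hu
        rw [h1, Walk.cons_append, Walk.nil_append] at h2
        show (P v).snd = u
        rw [← h2, Walk.snd_cons]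
    · have h1 := huniq u (Walk.cons h (P v)) ((Walk.cons_isPath_iff _ _).2 ⟨hP v, hu⟩)
      refine Or.inl ⟨fun e => ?_, ?_⟩
      · exact hu (e ▸ (P v).end_mem_support)
      · show (P u).snd = v
        rw [← h1, Walk.snd_cons]
  -- local tops of the bags of one vertex
  have htop : ∀ v x y, v ∈ B x → (x = r ∨ v ∉ B (par x)) → v ∈ B y → (y = r ∨ v ∉ B (par y)) →
      x = y := by
    intro v x y hx hxt hy hyt
    let Q : ι → ι → Prop := fun s a => (v ∈ B a ∧ (a = r ∨ v ∉ B (par a))) ∧
      Relation.ReflTransGen (fun p q => p ≠ r ∧ par p = q ∧ v ∈ B p) s a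
    have hQu : ∀ s a a', Q s a → Q s a' → a = a' := by
      rintro s a a' ⟨⟨ha, hat⟩, h1⟩ ⟨⟨ha', hat'⟩, h2⟩
      induction h1 using Relation.ReflTransGen.head_induction_on with
      | refl =>
        rcases Relation.ReflTransGen.cases_head h2 with h | ⟨q, ⟨hne, hq, -⟩, h3⟩
        · exact h
        · exfalso
          rcases hat with h | h
          · exact hne h
          · rw [hq] at h
            rcases Relation.ReflTransGen.cases_head h3 with h4 | ⟨q', ⟨-, -, h4⟩, -⟩
            exacts [h (h4 ▸ ha'), h h4]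
      | @head s q hsq h3 ih =>
        rcases Relation.ReflTransGen.cases_head h2 with h | ⟨q', ⟨hne, hq', -⟩, h4⟩
        · subst h
          exfalso
          rcases hat' with h | h
          · exact hsq.1 h
          · rw [hsq.2.1] at h
            rcases Relation.ReflTransGen.cases_head h3 with h4 | ⟨q'', ⟨-, -, h4⟩, -⟩
            exacts [h (h4 ▸ ha), h h4]
        · exact ih (hsq.2.1.symm.trans hq' ▸ h4)
    have hQe : ∀ n, ∀ s, (P s).length ≤ n → v ∈ B s → ∃ a, Q s a := by
      intro n
      induction n with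
      | zero =>
        intro s hs hvs
        refine ⟨s, ⟨hvs, Or.inl ?_⟩, Relation.ReflTransGen.refl⟩
        by_contra hne
        have := hdep s hne
        omega
      | succ n ih =>
        intro s hs hvs
        by_cases h : s = r ∨ v ∉ B (par s)
        · exact ⟨s, ⟨hvs, h⟩, Relation.ReflTransGen.refl⟩
        · push Not at h
          obtain ⟨a, ha, h2⟩ := ih (par s) (by have := hdep s h.1; omega) h.2
          exact ⟨a, ha, Relation.ReflTransGen.head ⟨h.1, rfl, hvs⟩ h2⟩
    have hQadj : ∀ s s', v ∈ B s → v ∈ B s' → Tι.Adj s s' → ∀ a a', Q s a → Q s' a' → a = a' := by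
      intro s s' hs hs' h a a' ha ha'
      rcases hadj s s' h with ⟨hne, hp⟩ | ⟨hne, hp⟩
      · exact hQu s a a' ha ⟨ha'.1, Relation.ReflTransGen.head ⟨hne, hp, hs⟩ ha'.2⟩
      · exact hQu s' a a' ⟨ha.1, Relation.ReflTransGen.head ⟨hne, hp, hs'⟩ ha.2⟩ ha'
    obtain ⟨p⟩ := hbags v ⟨x, hx⟩ ⟨y, hy⟩
    have hwalk : ∀ (s s' : {a | v ∈ B a}), (Tι.induce {a | v ∈ B a}).Walk s s' →
        ∀ a a', Q s.1 a → Q s'.1 a' → a = a' := by
      intro s s' q
      induction q with
      | nil => exact fun a a' => hQu _ a a'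
      | @cons s1 s2 s3 h q ih =>
        intro a a' ha ha'
        obtain ⟨a2, ha2⟩ := hQe _ s2.1 le_rfl s2.2
        exact (hQadj _ _ s1.2 s2.2 (induce_adj.1 h) a a2 ha ha2).trans (ih a2 a' ha2 ha')
    exact hwalk _ _ p x y ⟨⟨hx, hxt⟩, Relation.ReflTransGen.refl⟩
      ⟨⟨hy, hyt⟩, Relation.ReflTransGen.refl⟩
  let D : Data V ι :=
    { w := fun u v => treeConst b * w u v, k := treeConst b * k, eta := k, b := b, B := B
      par := par, dep := fun x => (P x).length, root := r, dep_par := hdep
      symm := fun u v => by rw [hsymm u v]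
      conn := fun S h1 h2 => by
        simp only [← mul_sum]
        exact Nat.mul_le_mul_left _ (hconn S h1 h2)
      cover := hcover
      edge := fun u v h => hedge u v (pos_of_mul_pos_right h (Nat.zero_le _))
      one_top := htop, size := hsize }
  obtain ⟨T, h1, h2, h3⟩ := D.thin_tree hk le_rfl
  refine ⟨T, h1, fun u v h => pos_of_mul_pos_right (h2 u v h) (Nat.zero_le _), fun S => ?_⟩
  have := h3 S
  simp only [D, ← mul_sum] at this
  rw [thinConst, mul_assoc]
  exact this

end Vale.P061.TW
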