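import Mathlib

/-!
# P061: rooted tree decompositions

Rooted trees given by a parent map with decreasing depth, sub-trees, local tops of node sets.
-/

namespace Vale.P061.TW

open Finset
open scoped Classical

/-- `s` lies in the subtree of `u` (`par` is never applied to the root). -/
def Below {ι : Type} (par : ι → ι) (root : ι) (s u : ι) : Prop :=
  Relation.ReflTransGen (fun x y => x ≠ root ∧ par x = y) s u

/-- A multigraph with a rooted tree decomposition, and the threshold `eta`. -/
structure Data (V ι : Type) [Fintype V] [Fintype ι] where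
  w : V → V → ℕ
  k : ℕ
  eta : ℕ
  b : ℕ
  B : ι → Finset V
  par : ι → ι
  dep : ι → ℕ
  root : ι
  dep_par : ∀ x, x ≠ root → dep (par x) < dep x
  symm : ∀ u v, w u v = w v u
  conn : ∀ S : Finset V, S.Nonempty → S ≠ univ → k ≤ ∑ u ∈ S, ∑ v ∈ Sᶜ, w u v
  cover : ∀ v, ∃ s, v ∈ B s
  edge : ∀ u v, 0 < w u v → ∃ s, u ∈ B s ∧ v ∈ B s
  one_top : ∀ v x y, v ∈ B x → (x = root ∨ v ∉ B (par x)) → v ∈ B y → (y = root ∨ v ∉ B (par y)) →
    x = y
  size : ∀ s, (B s).card ≤ b

variable {V ι : Type} [Fintype V] [Fintype ι] (D : Data V ι)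

/-- The subtree at `u`. -/
noncomputable def Data.sub (u : ι) : Finset ι := univ.filter fun s => Below D.par D.root s u

/-- The children of `u`. -/
noncomputable def Data.ch (u : ι) : Finset ι := univ.filter fun x => x ≠ D.root ∧ D.par x = u

/-- Local top of a set of nodes. -/
def Data.Top (P : ι → Prop) (x : ι) : Prop := P x ∧ (x = D.root ∨ ¬ P (D.par x))

/-- The set of nodes has at most one local top. -/
def Data.OneTop (P : ι → Prop) : Prop := ∀ x y, D.Top P x → D.Top P y → x = y

theorem Data.mem_sub {s u : ι} : s ∈ D.sub u ↔ Below D.par D.root s u := by simp [Data.sub]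

theorem Data.mem_sub_self (u : ι) : u ∈ D.sub u := D.mem_sub.2 Relation.ReflTransGen.refl

theorem Data.below_dep {s u : ι} (h : Below D.par D.root s u) :
    D.dep u ≤ D.dep s ∧ (D.dep u = D.dep s → s = u) := by
  induction h with
  | refl => exact ⟨le_rfl, fun _ => rfl⟩
  | @tail y z _ h2 ih =>
    have := D.dep_par y h2.1
    rw [h2.2] at this
    exact ⟨by omega, fun h => absurd h (by omega)⟩

theorem Data.below_trans {s u z : ι} (h1 : Below D.par D.root s u) (h2 : Below D.par D.root u z) :
    Below D.par D.root s z :=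
  Relation.ReflTransGen.trans h1 h2

theorem Data.below_antisymm {s u : ι} (h1 : Below D.par D.root s u)
    (h2 : Below D.par D.root u s) : s = u :=
  (D.below_dep h1).2 (le_antisymm (D.below_dep h1).1 (D.below_dep h2).1)

theorem Data.below_total {s u z : ι} (h1 : Below D.par D.root s u) (h2 : Below D.par D.root s z) :
    Below D.par D.root u z ∨ Below D.par D.root z u :=
  Relation.ReflTransGen.total_of_right_unique (fun _ _ _ a c => a.2.symm.trans c.2) h1 h2

theorem Data.below_root (s : ι) : Below D.par D.root s D.root := by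
  suffices ∀ n, ∀ x, D.dep x ≤ n → Below D.par D.root x D.root from this _ s le_rfl
  intro n
  induction n with
  | zero =>
    intro x hx
    by_cases h : x = D.root
    · subst h; exact Relation.ReflTransGen.refl
    · have := D.dep_par x h; omega
  | succ n ih =>
    intro x hx
    by_cases h : x = D.root
    · subst h; exact Relation.ReflTransGen.refl
    · exact Relation.ReflTransGen.head ⟨h, rfl⟩ (ih _ (by have := D.dep_par x h; omega))

theorem Data.sub_root : D.sub D.root = univ :=
  eq_univ_iff_forall.2 fun s => D.mem_sub.2 (D.below_root s)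

theorem Data.sub_mono {s u : ι} (h : s ∈ D.sub u) : D.sub s ⊆ D.sub u := fun _ hz =>
  D.mem_sub.2 (D.below_trans (D.mem_sub.1 hz) (D.mem_sub.1 h))

theorem Data.below_cases {s u : ι} (h : Below D.par D.root s u) :
    s = u ∨ ∃ x ∈ D.ch u, Below D.par D.root s x := by
  rcases Relation.ReflTransGen.cases_tail h with h | ⟨x, h1, h2⟩
  · exact Or.inl h.symm
  · exact Or.inr ⟨x, by simp [Data.ch, h2.1, h2.2], h1⟩

/-- The parent of a proper member of a subtree is still in it. -/
theorem Data.par_mem {x t : ι} (h : x ∈ D.sub t) (hne : x ≠ t) :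
    x ≠ D.root ∧ D.par x ∈ D.sub t := by
  rcases Relation.ReflTransGen.cases_head (D.mem_sub.1 h) with h' | ⟨y, ⟨h1, h2⟩, h3⟩
  · exact absurd h' hne
  · exact ⟨h1, D.mem_sub.2 (h2 ▸ h3)⟩

/-- Climbing from a member reaches a local top through members. -/
theorem Data.exists_top (P : ι → Prop) {s : ι} (hs : P s) :
    ∃ x, D.Top P x ∧ Below D.par D.root s x ∧
      ∀ z, Below D.par D.root s z → Below D.par D.root z x → P z := by
  suffices ∀ n, ∀ s, D.dep s ≤ n → P s → ∃ x, D.Top P x ∧ Below D.par D.root s x ∧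
      ∀ z, Below D.par D.root s z → Below D.par D.root z x → P z from this _ s le_rfl hs
  intro n
  induction n with
  | zero =>
    intro s hn hs
    by_cases h : s = D.root
    · refine ⟨s, ⟨hs, Or.inl h⟩, Relation.ReflTransGen.refl, fun z a c => ?_⟩
      exact D.below_antisymm a c ▸ hs
    · have := D.dep_par s h; omega
  | succ n ih =>
    intro s hn hs
    by_cases h : s = D.root ∨ ¬ P (D.par s)
    · refine ⟨s, ⟨hs, h⟩, Relation.ReflTransGen.refl, fun z a c => ?_⟩
      exact D.below_antisymm a c ▸ hs
    · push Not at h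
      obtain ⟨x, hx, h1, h2⟩ := ih _ (by have := D.dep_par s h.1; omega) h.2
      refine ⟨x, hx, Relation.ReflTransGen.head ⟨h.1, rfl⟩ h1, fun z a c => ?_⟩
      rcases Relation.ReflTransGen.cases_head a with rfl | ⟨y, ⟨-, hy⟩, a'⟩
      · exact hs
      · exact h2 z (hy ▸ a') c

/-- A set with one top contains every node between two members, one below the other. -/
theorem Data.between {P : ι → Prop} (hP : D.OneTop P) {s u z : ι} (hs : P s) (hu : P u)
    (h1 : Below D.par D.root s z) (h2 : Below D.par D.root z u) : P z := by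
  obtain ⟨x, hx, -, hmid⟩ := D.exists_top P hs
  obtain ⟨x', hx', hux, -⟩ := D.exists_top P hu
  exact hmid z h1 (D.below_trans h2 (hP x x' hx hx' ▸ hux))

/-- Every member lies below the top. -/
theorem Data.below_top {P : ι → Prop} (hP : D.OneTop P) {t s : ι} (ht : D.Top P t) (hs : P s) :
    Below D.par D.root s t := by
  obtain ⟨x, hx, hsx, -⟩ := D.exists_top P hs
  exact hP x t hx ht ▸ hsx

/-- The vertices in the bags of a node set. -/
noncomputable def Data.verts (N : Finset ι) : Finset V := N.biUnion D.B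

theorem Data.mem_verts {N : Finset ι} {v : V} : v ∈ D.verts N ↔ ∃ s ∈ N, v ∈ D.B s := by
  simp [Data.verts]

/-- The vertices lying only in bags of the subtree at `h` and not in its root bag. -/
noncomputable def Data.dead (h : ι) : Finset V := D.verts (D.sub h) \ D.B h

theorem Data.dead_spec {v : V} {h s : ι} (hv : v ∈ D.dead h) (hs : v ∈ D.B s) : s ∈ D.sub h := by
  simp only [Data.dead, mem_sdiff, D.mem_verts] at hv
  obtain ⟨⟨s0, hs0, hv0⟩, hvh⟩ := hv
  obtain ⟨x, hx, h0x, hmid⟩ := D.exists_top (fun z => v ∈ D.B z) hv0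
  have hxh : Below D.par D.root x h := by
    rcases D.below_total h0x (D.mem_sub.1 hs0) with a | a
    · exact a
    · exact absurd (hmid h (D.mem_sub.1 hs0) a) hvh
  exact D.mem_sub.2 (D.below_trans
    (D.below_top (fun a c ha hc => D.one_top v a c ha.1 ha.2 hc.1 hc.2) hx hs) hxh)

theorem Data.mem_dead {v : V} {h s : ι} (hs : s ∈ D.sub h) (hv : v ∈ D.B s) (hh : v ∉ D.B h) :
    v ∈ D.dead h := by
  simp only [Data.dead, mem_sdiff, D.mem_verts]
  exact ⟨⟨s, hs, hv⟩, hh⟩

/-- A choice from a finite set. -/
noncomputable def pick (d : ι) (F : Finset ι) : ι := if h : F.Nonempty then h.choose else d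

/-- A node whose bag holds both vertices. -/
noncomputable def Data.nu (u v : V) : ι :=
  pick D.root (univ.filter fun s => u ∈ D.B s ∧ v ∈ D.B s)

theorem Data.nu_comm (u v : V) : D.nu u v = D.nu v u := by
  simp only [Data.nu, and_comm (a := u ∈ D.B _)]

theorem Data.nu_in {u v : V} (h : 0 < D.w u v) : u ∈ D.B (D.nu u v) ∧ v ∈ D.B (D.nu u v) := by
  obtain ⟨s, hs⟩ := D.edge u v h
  have hne : (univ.filter fun s => u ∈ D.B s ∧ v ∈ D.B s).Nonempty := ⟨s, by simp [hs]⟩
  have := hne.choose_spec
  simp only [Data.nu, pick, dif_pos hne]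
  simpa using this

theorem Data.b_pos (v : V) : 1 ≤ D.b := by
  obtain ⟨s, hs⟩ := D.cover v
  exact (card_pos.2 ⟨v, hs⟩).trans_le (D.size s)

end Vale.P061.TW
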